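import Mathlib

open Finset Polynomial

namespace Vale.Agent.Lib.Cube

/-- Sign of a bit: `false ↦ 1`, `true ↦ -1`. -/
def sgn (b : Bool) : ℝ := if b then -1 else 1

/-- The character `χ_S(x) = ∏_{i ∈ S} x_i` of the cube, with `x_i = sgn (x i)`. -/
def chi {n : ℕ} (S : Finset (Fin n)) (x : Fin n → Bool) : ℝ := ∏ i ∈ S, sgn (x i)

/-- The Fourier coefficient `E[f χ_S]` with respect to the uniform measure on the cube. -/
noncomputable def fhat {n : ℕ} (f : (Fin n → Bool) → ℝ) (S : Finset (Fin n)) : ℝ :=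
  (∑ x, f x * chi S x) / 2 ^ n

/-- Product weight of the point `x` for the measure under which every coordinate has mean `t`. -/
noncomputable def wt {n : ℕ} (t : ℝ) (x : Fin n → Bool) : ℝ := ∏ i, (1 + t * sgn (x i)) / 2

lemma sgn_false : sgn false = 1 := by simp [sgn]
lemma sgn_true : sgn true = -1 := by simp [sgn]

lemma sgn_cases (b : Bool) : sgn b = 1 ∨ sgn b = -1 := by cases b <;> simp [sgn]

lemma sum_prod_bool {n : ℕ} (h : Fin n → Bool → ℝ) :
    ∑ x : Fin n → Bool, ∏ i, h i (x i) = ∏ i, (h i false + h i true) := by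
  have := Fintype.prod_sum (κ := fun _ : Fin n => Bool) h
  rw [← this]
  refine Finset.prod_congr rfl (fun i _ => ?_)
  rw [Fintype.sum_bool, add_comm]

lemma wt_sum {n : ℕ} (t : ℝ) : ∑ x : Fin n → Bool, wt t x = 1 := by
  unfold wt
  rw [sum_prod_bool (fun _ b => (1 + t * sgn b) / 2)]
  refine Finset.prod_eq_one (fun i _ => ?_)
  rw [sgn_false, sgn_true]; ring

lemma wt_nonneg {n : ℕ} {t : ℝ} (ht : |t| ≤ 1) (x : Fin n → Bool) : 0 ≤ wt t x := by
  unfold wt
  refine Finset.prod_nonneg (fun i _ => ?_)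
  have := abs_le.1 ht
  rcases sgn_cases (x i) with h | h <;> rw [h] <;> linarith

lemma wt_pos {n : ℕ} {t : ℝ} (ht : |t| < 1) (x : Fin n → Bool) : 0 < wt t x := by
  unfold wt
  refine Finset.prod_pos (fun i _ => ?_)
  have := abs_lt.1 ht
  rcases sgn_cases (x i) with h | h <;> rw [h] <;> linarith

lemma wt_expand {n : ℕ} (t : ℝ) (x : Fin n → Bool) :
    wt t x = (∑ S : Finset (Fin n), t ^ S.card * chi S x) / 2 ^ n := by
  unfold wt chi
  rw [Finset.prod_div_distrib, Finset.prod_const, Finset.card_univ, Fintype.card_fin,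
    Finset.prod_one_add, Finset.powerset_univ]
  congr 1
  refine Finset.sum_congr rfl (fun S _ => ?_)
  rw [Finset.prod_mul_distrib, Finset.prod_const]

/-- The mean of `f` under the biased measure is the polynomial `∑_S f̂(S) t^{|S|}`. -/
lemma expect_eq {n : ℕ} (f : (Fin n → Bool) → ℝ) (t : ℝ) :
    ∑ x, f x * wt t x = ∑ S, fhat f S * t ^ S.card := by
  unfold fhat
  calc ∑ x, f x * wt t x
      = (∑ x, ∑ S : Finset (Fin n), f x * (t ^ S.card * chi S x)) / 2 ^ n := by
        rw [Finset.sum_div]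
        refine Finset.sum_congr rfl (fun x _ => ?_)
        rw [wt_expand, ← mul_div_assoc, Finset.mul_sum]
    _ = (∑ S : Finset (Fin n), ∑ x, f x * (t ^ S.card * chi S x)) / 2 ^ n := by
        rw [Finset.sum_comm]
    _ = ∑ S, (∑ x, f x * chi S x) / 2 ^ n * t ^ S.card := by
        rw [Finset.sum_div]
        refine Finset.sum_congr rfl (fun S _ => ?_)
        rw [div_mul_eq_mul_div, Finset.sum_mul]
        congr 1
        refine Finset.sum_congr rfl (fun x _ => ?_)
        ring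

lemma abs_expect_le {n : ℕ} (f : (Fin n → Bool) → ℝ) (hf : ∀ x, |f x| ≤ 1) {t : ℝ}
    (ht : |t| ≤ 1) : |∑ x, f x * wt t x| ≤ 1 := by
  calc |∑ x, f x * wt t x| ≤ ∑ x, |f x * wt t x| := Finset.abs_sum_le_sum_abs _ _
    _ ≤ ∑ x, wt t x := by
        refine Finset.sum_le_sum (fun x _ => ?_)
        rw [abs_mul, abs_of_nonneg (wt_nonneg ht x)]
        exact mul_le_of_le_one_left (wt_nonneg ht x) (hf x)
    _ = 1 := wt_sum t

/-- From a coefficient family `a` on subsets, vanishing above size `d`, whose generating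
polynomial `∑ a_S t^{|S|}` is bounded by `1` on `[-1,1]`, build a polynomial `R` of degree at most
`2⌊(d-1)/2⌋+1`, bounded by `1` on `[-1,1]`, with `R'(1) = (∑_i a_{i})²` and with
`R(1-2τ²) = 1 - 2 (odd part of the generating polynomial at τ)²`. -/
lemma exists_R {n : ℕ} (a : Finset (Fin n) → ℝ) (d : ℕ)
    (hdeg : ∀ S, d < S.card → a S = 0)
    (hbound : ∀ t : ℝ, |t| ≤ 1 → |∑ S, a S * t ^ S.card| ≤ 1) :
    ∃ R : ℝ[X], R.natDegree ≤ 2 * ((d - 1) / 2) + 1 ∧
      (∀ y ∈ Set.Icc (-1 : ℝ) 1, |R.eval y| ≤ 1) ∧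
      (derivative R).eval 1 = (∑ i, a {i}) ^ 2 ∧
      ∀ τ : ℝ, 0 ≤ τ → τ ≤ 1 → R.eval (1 - 2 * τ ^ 2) =
        1 - 2 * ((∑ S, a S * τ ^ S.card - ∑ S, a S * (-τ) ^ S.card) / 2) ^ 2 := by
  classical
  set q : ℝ[X] := ∑ S ∈ univ.filter (fun S : Finset (Fin n) => Odd S.card),
    C (a S) * X ^ ((S.card - 1) / 2) with hqdef
  have hq : ∀ τ : ℝ, τ * q.eval (τ ^ 2) =
      (∑ S, a S * τ ^ S.card - ∑ S, a S * (-τ) ^ S.card) / 2 := by
    intro τ
    rw [← Finset.sum_sub_distrib, Finset.sum_div]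
    simp only [hqdef, eval_finsetSum, eval_mul, eval_C, eval_pow, eval_X, Finset.mul_sum]
    rw [Finset.sum_filter]
    refine Finset.sum_congr rfl (fun S _ => ?_)
    split_ifs with h
    · obtain ⟨m, hm⟩ := h
      rw [hm, Odd.neg_pow ⟨m, rfl⟩]
      have : (2 * m + 1 - 1) / 2 = m := by omega
      rw [this]; ring
    · rw [Nat.not_odd_iff_even] at h
      rw [Even.neg_pow h]; ring
  have hqabs : ∀ τ : ℝ, |τ| ≤ 1 → |τ * q.eval (τ ^ 2)| ≤ 1 := by
    intro τ hτ
    rw [hq τ]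
    have h1 := abs_le.1 (hbound τ hτ)
    have h2 := abs_le.1 (hbound (-τ) (by rwa [abs_neg]))
    rw [abs_le]; constructor <;> linarith [h1.1, h1.2, h2.1, h2.2]
  have hqdeg : q.natDegree ≤ (d - 1) / 2 := by
    refine natDegree_sum_le_of_forall_le _ _ (fun S _ => ?_)
    by_cases hS : d < S.card
    · rw [hdeg S hS]; simp
    · exact (natDegree_C_mul_X_pow_le _ _).trans (Nat.div_le_div_right (by omega))
  have hq0 : q.eval 0 = ∑ i, a {i} := by
    simp only [hqdef, eval_finsetSum, eval_mul, eval_C, eval_pow, eval_X]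
    have hterm : ∀ S ∈ univ.filter (fun S : Finset (Fin n) => Odd S.card),
        a S * (0 : ℝ) ^ ((S.card - 1) / 2) = if S.card = 1 then a S else 0 := by
      intro S hS
      have hodd := (Finset.mem_filter.1 hS).2
      split_ifs with h
      · rw [h]; simp
      · obtain ⟨m, hm⟩ := hodd
        have : (S.card - 1) / 2 ≠ 0 := by omega
        rw [zero_pow this, mul_zero]
    rw [Finset.sum_congr rfl hterm, Finset.sum_ite, Finset.sum_const_zero, add_zero]
    symm
    refine Finset.sum_bij (fun i _ => ({i} : Finset (Fin n))) ?_ ?_ ?_ ?_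
    · intro i _; simp
    · intro i _ j _ h; exact Finset.singleton_injective h
    · intro S hS
      have h1 := (Finset.mem_filter.1 hS).2
      obtain ⟨i, rfl⟩ := Finset.card_eq_one.1 h1
      exact ⟨i, Finset.mem_univ _, rfl⟩
    · intro i _; rfl
  set Q : ℝ[X] := q.comp (C (1 / 2 : ℝ) * (1 - X)) with hQdef
  refine ⟨1 - (1 - X) * Q ^ 2, ?_, ?_, ?_, ?_⟩
  · have h1 : (1 - X : ℝ[X]).natDegree ≤ 1 := (natDegree_sub_le _ _).trans (by simp)
    have h2 : Q.natDegree ≤ (d - 1) / 2 := by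
      have h3 : (C (1 / 2 : ℝ) * (1 - X)).natDegree ≤ 1 := (natDegree_C_mul_le _ _).trans h1
      calc Q.natDegree ≤ q.natDegree * (C (1 / 2 : ℝ) * (1 - X)).natDegree := natDegree_comp_le
        _ ≤ ((d - 1) / 2) * 1 := Nat.mul_le_mul hqdeg h3
        _ = (d - 1) / 2 := Nat.mul_one _
    have h4 : ((1 - X) * Q ^ 2 : ℝ[X]).natDegree ≤ 1 + 2 * ((d - 1) / 2) :=
      natDegree_mul_le.trans
        (Nat.add_le_add h1 ((natDegree_pow_le).trans (Nat.mul_le_mul_left 2 h2)))
    calc (1 - (1 - X) * Q ^ 2 : ℝ[X]).natDegree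
        ≤ max (1 : ℝ[X]).natDegree ((1 - X) * Q ^ 2 : ℝ[X]).natDegree := natDegree_sub_le _ _
      _ ≤ 2 * ((d - 1) / 2) + 1 := by rw [natDegree_one]; omega
  · intro y hy
    have hy1 : -1 ≤ y := hy.1
    have hy2 : y ≤ 1 := hy.2
    have hev : (1 - (1 - X) * Q ^ 2 : ℝ[X]).eval y
        = 1 - (1 - y) * (q.eval (1 / 2 * (1 - y))) ^ 2 := by
      simp only [hQdef, eval_sub, eval_one, eval_mul, eval_X, eval_pow, eval_comp, eval_C]
    rw [hev]
    set u : ℝ := 1 / 2 * (1 - y) with hu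
    have hu0 : 0 ≤ u := by rw [hu]; linarith
    have hu1 : u ≤ 1 := by rw [hu]; linarith
    have hτ2 : Real.sqrt u ^ 2 = u := Real.sq_sqrt hu0
    have hτ0 : 0 ≤ Real.sqrt u := Real.sqrt_nonneg u
    have hτ1 : Real.sqrt u ≤ 1 := Real.sqrt_le_one.2 hu1
    have h3 := hqabs (Real.sqrt u) (by rw [abs_of_nonneg hτ0]; exact hτ1)
    rw [hτ2] at h3
    have h4 : (Real.sqrt u * q.eval u) ^ 2 ≤ 1 := by
      have := abs_le.1 h3
      nlinarith [this.1, this.2]
    have h5 : (1 - y) * (q.eval u) ^ 2 = 2 * (Real.sqrt u * q.eval u) ^ 2 := by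
      rw [mul_pow, hτ2, hu]; ring
    rw [h5, abs_le]
    constructor <;> nlinarith [sq_nonneg (Real.sqrt u * q.eval u)]
  · have hder : (derivative (1 - (1 - X) * Q ^ 2 : ℝ[X])).eval 1 = (Q.eval 1) ^ 2 := by
      simp only [derivative_sub, derivative_one, derivative_mul, derivative_X, eval_sub,
        eval_add, eval_mul, eval_one, eval_X, eval_pow, zero_sub, sub_self, zero_mul, add_zero,
        eval_neg]
      ring
    rw [hder, hQdef, eval_comp]
    simp only [eval_mul, eval_C, eval_sub, eval_one, eval_X, sub_self, mul_zero]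
    rw [hq0]
  · intro τ hτ0 hτ1
    have hev : (1 - (1 - X) * Q ^ 2 : ℝ[X]).eval (1 - 2 * τ ^ 2)
        = 1 - (1 - (1 - 2 * τ ^ 2)) * (q.eval (1 / 2 * (1 - (1 - 2 * τ ^ 2)))) ^ 2 := by
      simp only [hQdef, eval_sub, eval_one, eval_mul, eval_X, eval_pow, eval_comp, eval_C]
    rw [hev, ← hq τ]
    have : (1 / 2 * (1 - (1 - 2 * τ ^ 2)) : ℝ) = τ ^ 2 := by ring
    rw [this]; ring

/-- Markov-type bound: the square of the level-one sum of a bounded function whose Fourier
transform is supported on sets of size at most `d`. -/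
theorem sq_linear_sum_le {n : ℕ} (f : (Fin n → Bool) → ℝ) (hf : ∀ x, |f x| ≤ 1) (d : ℕ)
    (hdeg : ∀ S, d < S.card → fhat f S = 0) :
    (∑ i, fhat f {i}) ^ 2 ≤ ((2 * ((d - 1) / 2) + 1 : ℕ) : ℝ) ^ 2 := by
  obtain ⟨R, hdegR, hbd, hder, -⟩ := exists_R (fhat f) d hdeg
    (fun t ht => by rw [← expect_eq]; exact abs_expect_le f hf ht)
  have h := Polynomial.Chebyshev.eval_iterate_derivative_le_of_forall_abs_le_one
    (n := 2 * ((d - 1) / 2) + 1) (P := R) (k := 1) (x := 1) le_rfl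
    (degree_le_of_natDegree_le hdegR) hbd
  simp only [Function.iterate_one] at h
  rw [hder, Polynomial.Chebyshev.derivative_T_eval_one] at h
  exact_mod_cast h

end Vale.Agent.Lib.Cube
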