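import Mathlib
import Vale.Agent.Lib.CubeFourier

open Finset Polynomial

namespace Vale.Agent.Lib.Cube

/-- Shifted monomial `∏_{i ∈ S} (x_i - t)`. -/
noncomputable def mono {n : ℕ} (t : ℝ) (S : Finset (Fin n)) (x : Fin n → Bool) : ℝ :=
  ∏ i ∈ S, (sgn (x i) - t)

lemma mono_empty {n : ℕ} (t : ℝ) (x : Fin n → Bool) : mono t ∅ x = 1 := by simp [mono]

/-- Orthogonality of the shifted monomials under the biased product measure. -/
lemma mono_orth {n : ℕ} (t : ℝ) (S S' : Finset (Fin n)) :
    ∑ x, wt t x * (mono t S x * mono t S' x) = if S = S' then (1 - t ^ 2) ^ S.card else 0 := by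
  have h1 : ∀ x : Fin n → Bool, wt t x * (mono t S x * mono t S' x) =
      ∏ i, ((1 + t * sgn (x i)) / 2 * ((if i ∈ S then sgn (x i) - t else 1) *
        (if i ∈ S' then sgn (x i) - t else 1))) := by
    intro x
    unfold wt mono
    rw [Finset.prod_mul_distrib, Finset.prod_mul_distrib, Fintype.prod_ite_mem,
      Fintype.prod_ite_mem]
  simp only [h1]
  rw [sum_prod_bool (fun i b => (1 + t * sgn b) / 2 * ((if i ∈ S then sgn b - t else 1) *
        (if i ∈ S' then sgn b - t else 1)))]
  simp only [sgn_false, sgn_true]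
  by_cases hSS : S = S'
  · subst hSS
    rw [if_pos rfl]
    have : ∀ i : Fin n, ((1 + t * 1) / 2 * ((if i ∈ S then (1 : ℝ) - t else 1) *
        (if i ∈ S then (1 : ℝ) - t else 1)) + (1 + t * -1) / 2 *
        ((if i ∈ S then (-1 : ℝ) - t else 1) * (if i ∈ S then (-1 : ℝ) - t else 1)))
        = if i ∈ S then 1 - t ^ 2 else 1 := by
      intro i; split_ifs <;> ring
    rw [Finset.prod_congr rfl (fun i _ => this i), Fintype.prod_ite_mem, Finset.prod_const]
  · rw [if_neg hSS]
    obtain ⟨i, hi⟩ : ∃ i, ¬ (i ∈ S ↔ i ∈ S') := by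
      by_contra hcon
      rw [not_exists] at hcon
      exact hSS (Finset.ext (fun i => not_not.1 (hcon i)))
    refine Finset.prod_eq_zero (Finset.mem_univ i) ?_
    by_cases h1 : i ∈ S
    · have h2 : i ∉ S' := fun h2 => hi ⟨fun _ => h2, fun _ => h1⟩
      simp only [if_pos h1, if_neg h2]; ring
    · have h2 : i ∈ S' := by
        by_contra h2; exact hi ⟨fun h => absurd h h1, fun h => absurd h h2⟩
      simp only [if_neg h1, if_pos h2]; ring

lemma mono_mean {n : ℕ} (t : ℝ) (S : Finset (Fin n)) :
    ∑ x, wt t x * mono t S x = if S = ∅ then 1 else 0 := by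
  have := mono_orth t S ∅
  simp only [mono_empty, mul_one] at this
  rw [this]
  split_ifs with h
  · rw [h]; simp
  · rfl

/-- Gram expansion of a square under the biased measure, for an orthogonal family. -/
lemma sum_wt_sq_gen {n : ℕ} {α : Type*} [DecidableEq α] (A : Finset α) (t : ℝ) (c : α → ℝ)
    (F : α → (Fin n → Bool) → ℝ) (N : α → ℝ)
    (horth : ∀ a ∈ A, ∀ a' ∈ A, ∑ x, wt t x * (F a x * F a' x) = if a = a' then N a else 0) :
    ∑ x, wt t x * (∑ a ∈ A, c a * F a x) ^ 2 = ∑ a ∈ A, c a ^ 2 * N a := by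
  have h1 : ∀ x : Fin n → Bool, wt t x * (∑ a ∈ A, c a * F a x) ^ 2 =
      ∑ a ∈ A, ∑ a' ∈ A, c a * c a' * (wt t x * (F a x * F a' x)) := by
    intro x
    rw [sq, Finset.sum_mul_sum, Finset.mul_sum]
    refine Finset.sum_congr rfl (fun a _ => ?_)
    rw [Finset.mul_sum]
    refine Finset.sum_congr rfl (fun a' _ => ?_)
    ring
  simp only [h1]
  rw [Finset.sum_comm]
  refine Finset.sum_congr rfl (fun a ha => ?_)
  rw [Finset.sum_comm]
  have : ∀ a' ∈ A, ∑ x, c a * c a' * (wt t x * (F a x * F a' x))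
      = if a = a' then c a ^ 2 * N a else 0 := by
    intro a' ha'
    rw [← Finset.mul_sum, horth a ha a' ha']
    split_ifs with h
    · subst h; ring
    · ring
  rw [Finset.sum_congr rfl this, Finset.sum_ite_eq, if_pos ha]

/-- Fourier inversion on the cube. -/
lemma fourier_inv {n : ℕ} (f : (Fin n → Bool) → ℝ) (x : Fin n → Bool) :
    f x = ∑ S, fhat f S * chi S x := by
  have key : ∀ y : Fin n → Bool,
      ∑ S : Finset (Fin n), chi S y * chi S x = if y = x then 2 ^ n else 0 := by
    intro y
    have h1 : ∀ S : Finset (Fin n), chi S y * chi S x = ∏ i ∈ S, (sgn (y i) * sgn (x i)) := by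
      intro S; unfold chi; rw [Finset.prod_mul_distrib]
    simp only [h1]
    have h2 := Finset.prod_one_add (f := fun i => sgn (y i) * sgn (x i))
      (Finset.univ : Finset (Fin n))
    rw [Finset.powerset_univ] at h2
    rw [← h2]
    by_cases hyx : y = x
    · subst hyx
      rw [if_pos rfl]
      have : ∀ i : Fin n, 1 + sgn (y i) * sgn (y i) = 2 := by
        intro i
        rcases sgn_cases (y i) with h | h <;> rw [h] <;> norm_num
      rw [Finset.prod_congr rfl (fun i _ => this i), Finset.prod_const, Finset.card_univ,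
        Fintype.card_fin]
    · rw [if_neg hyx]
      obtain ⟨i, hi⟩ : ∃ i, y i ≠ x i := by
        by_contra hcon
        rw [not_exists] at hcon
        exact hyx (funext (fun i => not_not.1 (hcon i)))
      refine Finset.prod_eq_zero (Finset.mem_univ i) ?_
      cases hy : y i <;> cases hx : x i <;> simp [sgn, hy, hx] at hi ⊢
  have h3 : ∑ y, f y * (∑ S : Finset (Fin n), chi S y * chi S x) = f x * 2 ^ n := by
    simp only [key, mul_ite, mul_zero]
    rw [Finset.sum_ite_eq', if_pos (Finset.mem_univ _)]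
  have h2n : (2 : ℝ) ^ n ≠ 0 := by positivity
  unfold fhat
  symm
  calc ∑ S, (∑ y, f y * chi S y) / 2 ^ n * chi S x
      = (∑ S : Finset (Fin n), ∑ y, f y * (chi S y * chi S x)) / 2 ^ n := by
        rw [Finset.sum_div]
        refine Finset.sum_congr rfl (fun S _ => ?_)
        rw [div_mul_eq_mul_div, Finset.sum_mul]
        congr 1
        refine Finset.sum_congr rfl (fun y _ => ?_)
        ring
    _ = (∑ y, f y * ∑ S : Finset (Fin n), chi S y * chi S x) / 2 ^ n := by
        rw [Finset.sum_comm]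
        congr 1
        refine Finset.sum_congr rfl (fun y _ => ?_)
        rw [Finset.mul_sum]
    _ = f x := by rw [h3]; field_simp

lemma chi_shift {n : ℕ} (t : ℝ) (T : Finset (Fin n)) (x : Fin n → Bool) :
    chi T x = ∑ S ∈ T.powerset, mono t S x * t ^ (T \ S).card := by
  unfold chi mono
  have : ∀ i ∈ T, sgn (x i) = (sgn (x i) - t) + t := fun i _ => by ring
  rw [Finset.prod_congr rfl this, Finset.prod_add]
  refine Finset.sum_congr rfl (fun S _ => ?_)
  rw [Finset.prod_const]

/-- Coefficients of the expansion in shifted monomials. -/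
noncomputable def bco {n : ℕ} (a : Finset (Fin n) → ℝ) (t : ℝ) (S : Finset (Fin n)) : ℝ :=
  ∑ T, if S ⊆ T then a T * t ^ (T \ S).card else 0

lemma biased_expansion {n : ℕ} (f : (Fin n → Bool) → ℝ) (t : ℝ) (x : Fin n → Bool) :
    f x = ∑ S, bco (fhat f) t S * mono t S x := by
  have h0 := fourier_inv f x
  rw [h0]
  simp only [chi_shift t]
  unfold bco
  simp only [Finset.mul_sum, Finset.sum_mul]
  conv_rhs => rw [Finset.sum_comm]
  refine Finset.sum_congr rfl (fun T _ => ?_)
  have hpow : T.powerset = Finset.univ.filter (fun S => S ⊆ T) := by ext S; simp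
  rw [hpow, Finset.sum_filter]
  refine Finset.sum_congr rfl (fun S _ => ?_)
  split_ifs <;> ring

lemma bco_eq_zero {n : ℕ} (a : Finset (Fin n) → ℝ) (t : ℝ) (d : ℕ)
    (hdeg : ∀ S, d < S.card → a S = 0) (S : Finset (Fin n)) (hS : d < S.card) :
    bco a t S = 0 := by
  unfold bco
  refine Finset.sum_eq_zero (fun T _ => ?_)
  split_ifs with h
  · rw [hdeg T (lt_of_lt_of_le hS (Finset.card_le_card h)), zero_mul]
  · rfl

lemma bco_empty {n : ℕ} (a : Finset (Fin n) → ℝ) (t : ℝ) :
    bco a t ∅ = ∑ T, a T * t ^ T.card := by simp [bco]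

lemma sum_bco_singleton {n : ℕ} (a : Finset (Fin n) → ℝ) (t : ℝ) :
    ∑ i, bco a t {i} = ∑ T, a T * (T.card * t ^ (T.card - 1)) := by
  unfold bco
  rw [Finset.sum_comm]
  refine Finset.sum_congr rfl (fun T _ => ?_)
  have : ∀ i : Fin n, (if {i} ⊆ T then a T * t ^ (T \ {i}).card else 0)
      = if i ∈ T then a T * t ^ (T.card - 1) else 0 := by
    intro i
    by_cases h : i ∈ T
    · rw [if_pos (Finset.singleton_subset_iff.2 h), if_pos h, Finset.sdiff_singleton_eq_erase,
        Finset.card_erase_of_mem h]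
    · rw [if_neg (fun h' => h (Finset.singleton_subset_iff.1 h')), if_neg h]
  rw [Finset.sum_congr rfl (fun i _ => this i), Finset.sum_ite_mem, Finset.univ_inter,
    Finset.sum_const, nsmul_eq_mul]
  ring

/-- Discrete derivative in direction `i`. -/
noncomputable def dd {n : ℕ} (f : (Fin n → Bool) → ℝ) (i : Fin n) (x : Fin n → Bool) : ℝ :=
  (f (Function.update x i false) - f (Function.update x i true)) / 2

lemma mono_update {n : ℕ} (t : ℝ) (S : Finset (Fin n)) (i : Fin n) (x : Fin n → Bool)
    (b : Bool) : mono t S (Function.update x i b)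
      = if i ∈ S then (sgn b - t) * mono t (S.erase i) x else mono t S x := by
  unfold mono
  split_ifs with h
  · rw [← Finset.mul_prod_erase S _ h, Function.update_self]
    congr 1
    refine Finset.prod_congr rfl (fun j hj => ?_)
    rw [Function.update_of_ne (Finset.ne_of_mem_erase hj)]
  · refine Finset.prod_congr rfl (fun j hj => ?_)
    rw [Function.update_of_ne (fun hji => h (by rw [← hji]; exact hj))]

lemma dd_expansion {n : ℕ} (f : (Fin n → Bool) → ℝ) (t : ℝ) (i : Fin n) (x : Fin n → Bool) :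
    dd f i x = ∑ S ∈ univ.filter (fun S : Finset (Fin n) => i ∈ S),
      bco (fhat f) t S * mono t (S.erase i) x := by
  unfold dd
  rw [biased_expansion f t (Function.update x i false),
    biased_expansion f t (Function.update x i true), ← Finset.sum_sub_distrib, Finset.sum_div,
    Finset.sum_filter]
  refine Finset.sum_congr rfl (fun S _ => ?_)
  rw [mono_update, mono_update]
  split_ifs with h
  · rw [sgn_false, sgn_true]; ring
  · ring

lemma dd_mean {n : ℕ} (f : (Fin n → Bool) → ℝ) (t : ℝ) (i : Fin n) :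
    ∑ x, wt t x * dd f i x = bco (fhat f) t {i} := by
  simp only [dd_expansion f t i, Finset.mul_sum]
  rw [Finset.sum_comm]
  have : ∀ S ∈ univ.filter (fun S : Finset (Fin n) => i ∈ S),
      ∑ x, wt t x * (bco (fhat f) t S * mono t (S.erase i) x)
        = if S = {i} then bco (fhat f) t S else 0 := by
    intro S hS
    have h : i ∈ S := (Finset.mem_filter.1 hS).2
    have h' : ∀ x, wt t x * (bco (fhat f) t S * mono t (S.erase i) x)
        = bco (fhat f) t S * (wt t x * mono t (S.erase i) x) := fun x => by ring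
    rw [Finset.sum_congr rfl (fun x _ => h' x), ← Finset.mul_sum, mono_mean]
    by_cases h2 : S = {i}
    · rw [if_pos h2, if_pos (by rw [h2]; simp), mul_one]
    · rw [if_neg h2, if_neg, mul_zero]
      intro h3
      rw [Finset.erase_eq_empty_iff] at h3
      rcases h3 with h3 | h3
      · rw [h3] at h; simp at h
      · exact h2 h3
  rw [Finset.sum_congr rfl this, Finset.sum_ite_eq', if_pos]
  simp

lemma dd_sq {n : ℕ} (f : (Fin n → Bool) → ℝ) (t : ℝ) (i : Fin n) :
    ∑ x, wt t x * (dd f i x) ^ 2 = ∑ S ∈ univ.filter (fun S : Finset (Fin n) => i ∈ S),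
      bco (fhat f) t S ^ 2 * (1 - t ^ 2) ^ (S.card - 1) := by
  simp only [dd_expansion f t i]
  refine sum_wt_sq_gen _ t _ _ _ ?_
  intro S hS S' hS'
  have h : i ∈ S := (Finset.mem_filter.1 hS).2
  have h' : i ∈ S' := (Finset.mem_filter.1 hS').2
  rw [mono_orth]
  by_cases hSS : S = S'
  · subst hSS
    rw [if_pos rfl, if_pos rfl, Finset.card_erase_of_mem h]
  · rw [if_neg hSS, if_neg]
    intro h3
    apply hSS
    rw [← Finset.insert_erase h, ← Finset.insert_erase h', h3]

/-- The biased Poincare inequality with degree, for Boolean functions. -/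
theorem biased_poincare {n : ℕ} (f : (Fin n → Bool) → ℝ) (hf : ∀ x, f x = 1 ∨ f x = -1) (d : ℕ)
    (hdeg : ∀ S, d < S.card → fhat f S = 0) (t : ℝ) (ht : |t| < 1) :
    (1 - t ^ 2) * ∑ i, bco (fhat f) t {i} ≤ d * (1 - (bco (fhat f) t ∅) ^ 2) := by
  set b := bco (fhat f) t with hb
  have ht' := abs_lt.1 ht
  have hpos : 0 < 1 - t ^ 2 := by nlinarith [ht'.1, ht'.2]
  set v : Finset (Fin n) → ℝ := fun S => b S ^ 2 * (1 - t ^ 2) ^ S.card with hv
  have hvnn : ∀ S, 0 ≤ v S := fun S => mul_nonneg (sq_nonneg _) (pow_nonneg hpos.le _)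
  -- Parseval
  have hP : ∑ S, v S = 1 := by
    have h1 := sum_wt_sq_gen (Finset.univ : Finset (Finset (Fin n))) t b (mono t)
      (fun S => (1 - t ^ 2) ^ S.card) (fun S _ S' _ => mono_orth t S S')
    rw [← h1]
    have h2 : ∀ x : Fin n → Bool, wt t x * (∑ S, b S * mono t S x) ^ 2 = wt t x := by
      intro x
      rw [← biased_expansion f t x]
      rcases hf x with h | h <;> rw [h] <;> ring
    rw [Finset.sum_congr rfl (fun x _ => h2 x), wt_sum]
  -- level one
  have h1 : ∀ i, b {i} ≤ ∑ S ∈ univ.filter (fun S : Finset (Fin n) => i ∈ S),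
      b S ^ 2 * (1 - t ^ 2) ^ (S.card - 1) := by
    intro i
    have e1 := dd_mean f t i
    have e2 := dd_sq f t i
    rw [← hb] at e1 e2
    rw [← e1, ← e2]
    refine Finset.sum_le_sum (fun x _ => ?_)
    have hw := wt_nonneg ht.le x
    have hdd : dd f i x ≤ dd f i x ^ 2 := by
      unfold dd
      rcases hf (Function.update x i false) with h | h <;>
        rcases hf (Function.update x i true) with h' | h' <;> rw [h, h'] <;> norm_num
    exact mul_le_mul_of_nonneg_left hdd hw
  have h2 : ∀ i, (1 - t ^ 2) * b {i} ≤ ∑ S, if i ∈ S then v S else 0 := by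
    intro i
    calc (1 - t ^ 2) * b {i}
        ≤ (1 - t ^ 2) * ∑ S ∈ univ.filter (fun S : Finset (Fin n) => i ∈ S),
            b S ^ 2 * (1 - t ^ 2) ^ (S.card - 1) := mul_le_mul_of_nonneg_left (h1 i) hpos.le
      _ = ∑ S, if i ∈ S then v S else 0 := by
          rw [Finset.mul_sum, Finset.sum_filter]
          refine Finset.sum_congr rfl (fun S _ => ?_)
          split_ifs with h
          · have hc : S.card - 1 + 1 = S.card :=
              Nat.sub_add_cancel (Finset.card_pos.2 ⟨i, h⟩)
            rw [hv]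
            simp only
            rw [← hc, pow_succ]
            simp only [Nat.add_sub_cancel]
            ring
          · simp
  have h3 : ∑ i, ∑ S, (if i ∈ S then v S else 0) = ∑ S, (S.card : ℝ) * v S := by
    rw [Finset.sum_comm]
    refine Finset.sum_congr rfl (fun S _ => ?_)
    rw [Finset.sum_ite_mem, Finset.univ_inter, Finset.sum_const, nsmul_eq_mul]
  have h4 : ∀ S : Finset (Fin n), (S.card : ℝ) * v S ≤ d * (if S = ∅ then 0 else v S) := by
    intro S
    by_cases hS : S = ∅
    · rw [if_pos hS, hS]; simp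
    · rw [if_neg hS]
      by_cases hd : d < S.card
      · have : v S = 0 := by
          rw [hv]; simp only
          rw [hb, bco_eq_zero (fhat f) t d hdeg S hd]; ring
        rw [this]; simp
      · have : (S.card : ℝ) ≤ d := by exact_mod_cast not_lt.1 hd
        exact mul_le_mul_of_nonneg_right this (hvnn S)
  have h5 : ∑ S, (if S = ∅ then (0 : ℝ) else v S) = 1 - b ∅ ^ 2 := by
    have hsplit : ∀ S : Finset (Fin n), (if S = ∅ then (0 : ℝ) else v S)
        = v S - (if S = ∅ then v S else 0) := by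
      intro S; split_ifs <;> ring
    rw [Finset.sum_congr rfl (fun S _ => hsplit S), Finset.sum_sub_distrib, hP,
      Finset.sum_ite_eq', if_pos (Finset.mem_univ _)]
    rw [hv]; simp
  calc (1 - t ^ 2) * ∑ i, b {i} = ∑ i, (1 - t ^ 2) * b {i} := Finset.mul_sum _ _ _
    _ ≤ ∑ i, ∑ S, (if i ∈ S then v S else 0) := Finset.sum_le_sum (fun i _ => h2 i)
    _ = ∑ S, (S.card : ℝ) * v S := h3
    _ ≤ ∑ S, d * (if S = ∅ then 0 else v S) := Finset.sum_le_sum (fun S _ => h4 S)
    _ = d * (1 - b ∅ ^ 2) := by rw [← Finset.mul_sum, h5]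

end Vale.Agent.Lib.Cube
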