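import Mathlib
import Vale.Agent.Lib.CubeBiased

open Finset Polynomial

namespace Vale.Agent.Lib.Cube

/-- The generating polynomial `∑_S a_S X^{|S|}`. -/
noncomputable def lpoly {n : ℕ} (a : Finset (Fin n) → ℝ) : ℝ[X] := ∑ S, C (a S) * X ^ S.card

lemma lpoly_eval {n : ℕ} (a : Finset (Fin n) → ℝ) (t : ℝ) :
    (lpoly a).eval t = ∑ S, a S * t ^ S.card := by
  simp [lpoly, eval_finsetSum]

lemma lpoly_deriv_eval {n : ℕ} (a : Finset (Fin n) → ℝ) (t : ℝ) :
    (derivative (lpoly a)).eval t = ∑ S, a S * (S.card * t ^ (S.card - 1)) := by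
  simp only [lpoly, derivative_sum, derivative_C_mul_X_pow, eval_finsetSum, eval_mul, eval_C,
    eval_pow, eval_X]
  refine Finset.sum_congr rfl (fun S _ => ?_)
  ring

/-- Integration of the differential inequality `(1-t²) P' ≤ d (1-P²)`. -/
lemma ode_bound (P : ℝ[X]) (d : ℕ) (hP : ∀ t : ℝ, |t| < 1 → |P.eval t| < 1)
    (hode : ∀ t : ℝ, |t| < 1 →
      (1 - t ^ 2) * (derivative P).eval t ≤ d * (1 - (P.eval t) ^ 2))
    (τ : ℝ) (hτ0 : 0 ≤ τ) (hτ1 : τ < 1) :
    (P.eval τ - P.eval (-τ)) / 2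
      ≤ (1 - ((1 - τ) / (1 + τ)) ^ d) / (1 + ((1 - τ) / (1 + τ)) ^ d) := by
  set G : ℝ → ℝ := fun t => Real.log (1 - P.eval t) - Real.log (1 + P.eval t)
    + d * Real.log (1 + t) - d * Real.log (1 - t) with hGdef
  have hG : ∀ t : ℝ, |t| < 1 → HasDerivAt G
      (-(derivative P).eval t / (1 - P.eval t) - (derivative P).eval t / (1 + P.eval t)
        + d * (1 / (1 + t)) - d * (-1 / (1 - t))) t := by
    intro t ht
    have hP' := P.hasDerivAt t
    have h1 := abs_lt.1 (hP t ht)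
    have h2 := abs_lt.1 ht
    have ha : HasDerivAt (fun t => 1 - P.eval t) (-(derivative P).eval t) t :=
      hP'.const_sub (1 : ℝ)
    have hb : HasDerivAt (fun t => 1 + P.eval t) ((derivative P).eval t) t :=
      hP'.const_add (1 : ℝ)
    have hid : HasDerivAt (fun x : ℝ => x) 1 t := hasDerivAt_id' t
    have hc : HasDerivAt (fun t : ℝ => 1 + t) 1 t := hid.const_add (1 : ℝ)
    have hd : HasDerivAt (fun t : ℝ => 1 - t) (-1) t := hid.const_sub (1 : ℝ)
    have hpa : (0 : ℝ) < 1 - P.eval t := by linarith [h1.2]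
    have hpb : (0 : ℝ) < 1 + P.eval t := by linarith [h1.1]
    have hpc : (0 : ℝ) < 1 + t := by linarith [h2.1]
    have hpd : (0 : ℝ) < 1 - t := by linarith [h2.2]
    exact (((ha.log hpa.ne').sub (hb.log hpb.ne')).add ((hc.log hpc.ne').const_mul (d : ℝ))).sub
      ((hd.log hpd.ne').const_mul (d : ℝ))
  have hin : ∀ t ∈ Set.Icc (-τ) τ, |t| < 1 :=
    fun t ht => abs_lt.2 ⟨by linarith [ht.1], by linarith [ht.2]⟩
  have hmono : MonotoneOn G (Set.Icc (-τ) τ) := by
    apply monotoneOn_of_deriv_nonneg (convex_Icc _ _)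
    · intro t ht
      exact (hG t (hin t ht)).continuousAt.continuousWithinAt
    · intro t ht
      exact (hG t (hin t (interior_subset ht))).differentiableAt.differentiableWithinAt
    · intro t ht
      have htt := hin t (interior_subset ht)
      rw [(hG t htt).deriv]
      have h1 := abs_lt.1 (hP t htt)
      have h2 := abs_lt.1 htt
      have ho := hode t htt
      have hpa : 0 < 1 - P.eval t := by linarith [h1.2]
      have hpb : 0 < 1 + P.eval t := by linarith [h1.1]
      have hpc : 0 < 1 + t := by linarith [h2.1]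
      have hpd : 0 < 1 - t := by linarith [h2.2]
      have key : -(derivative P).eval t / (1 - P.eval t)
          - (derivative P).eval t / (1 + P.eval t) + d * (1 / (1 + t)) - d * (-1 / (1 - t))
          = 2 * (d * (1 - (P.eval t) ^ 2) - (1 - t ^ 2) * (derivative P).eval t)
            / ((1 - P.eval t) * (1 + P.eval t) * ((1 + t) * (1 - t))) := by
        field_simp
        ring
      rw [key]
      exact div_nonneg (by linarith) (mul_pos (mul_pos hpa hpb) (mul_pos hpc hpd)).le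
  have hle : G (-τ) ≤ G τ := hmono (Set.mem_Icc.2 ⟨le_rfl, by linarith⟩)
    (Set.mem_Icc.2 ⟨by linarith, le_rfl⟩) (by linarith)
  have e1 : (1 : ℝ) + -τ = 1 - τ := by ring
  have e2 : (1 : ℝ) - -τ = 1 + τ := by ring
  have hle' : Real.log (1 - P.eval (-τ)) - Real.log (1 + P.eval (-τ))
      + d * Real.log (1 - τ) - d * Real.log (1 + τ)
      ≤ Real.log (1 - P.eval τ) - Real.log (1 + P.eval τ)
      + d * Real.log (1 + τ) - d * Real.log (1 - τ) := by
    have := hle
    simp only [hGdef] at this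
    rwa [e1, e2] at this
  have hτabs : |τ| < 1 := abs_lt.2 ⟨by linarith, hτ1⟩
  have hτabs' : |-τ| < 1 := by rwa [abs_neg]
  have h1 := abs_lt.1 (hP τ hτabs)
  have h2 := abs_lt.1 (hP (-τ) hτabs')
  have hρpos : 0 < (1 - τ) / (1 + τ) := div_pos (by linarith) (by linarith)
  have hρle : (1 - τ) / (1 + τ) ≤ 1 := by rw [div_le_one (by linarith)]; linarith
  have hrpos : 0 < ((1 - τ) / (1 + τ)) ^ d := pow_pos hρpos d
  have hrle : ((1 - τ) / (1 + τ)) ^ d ≤ 1 := pow_le_one₀ hρpos.le hρle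
  have hlogr : Real.log (((1 - τ) / (1 + τ)) ^ d) = d * (Real.log (1 - τ) - Real.log (1 + τ)) := by
    rw [Real.log_pow, Real.log_div (by linarith) (by linarith)]
  generalize hr : ((1 - τ) / (1 + τ)) ^ d = r at hrpos hrle hlogr ⊢
  generalize ha : P.eval τ = a at h1 hle' ⊢
  generalize ha' : P.eval (-τ) = a' at h2 hle' ⊢
  have hH : (1 - a') * (1 + a) * r ^ 2 ≤ (1 - a) * (1 + a') := by
    have hx1 : (0 : ℝ) < 1 - a' := by linarith [h2.2]
    have hx2 : (0 : ℝ) < 1 + a := by linarith [h1.1]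
    have hy1 : (0 : ℝ) < 1 - a := by linarith [h1.2]
    have hy2 : (0 : ℝ) < 1 + a' := by linarith [h2.1]
    have hx : 0 < (1 - a') * (1 + a) * r ^ 2 := mul_pos (mul_pos hx1 hx2) (pow_pos hrpos 2)
    have hy : 0 < (1 - a) * (1 + a') := mul_pos hy1 hy2
    rw [← Real.log_le_log_iff hx hy, Real.log_mul (mul_pos hx1 hx2).ne' (pow_pos hrpos 2).ne',
      Real.log_mul hx1.ne' hx2.ne', Real.log_pow, Real.log_mul hy1.ne' hy2.ne', hlogr]
    push_cast
    linarith
  rw [div_le_div_iff₀ (by norm_num) (by linarith)]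
  have hD : 0 < 2 - (1 - a') + (1 - a') * r ^ 2 := by
    have := mul_pos (by linarith [h2.2] : (0 : ℝ) < 1 - a') (pow_pos hrpos 2)
    linarith [h2.1]
  have key : ((1 - r) * 2 - (a - a') * (1 + r)) * (2 - (1 - a') + (1 - a') * r ^ 2)
      = (1 - r) * (2 - (1 - a') * (1 + r)) ^ 2
        + (1 + r) * ((1 - a) * (1 + a') - (1 - a') * (1 + a) * r ^ 2) := by ring
  have hnn : 0 ≤ ((1 - r) * 2 - (a - a') * (1 + r)) * (2 - (1 - a') + (1 - a') * r ^ 2) := by
    rw [key]
    have t1 := mul_nonneg (by linarith : (0 : ℝ) ≤ 1 - r) (sq_nonneg (2 - (1 - a') * (1 + r)))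
    have t2 := mul_nonneg (by linarith : (0 : ℝ) ≤ 1 + r)
      (by linarith : (0 : ℝ) ≤ (1 - a) * (1 + a') - (1 - a') * (1 + a) * r ^ 2)
    linarith
  have := nonneg_of_mul_nonneg_left hnn hD
  linarith

open Polynomial.Chebyshev in
/-- A refinement of Markov's inequality at the endpoint: a defect at the first interior
Chebyshev node lowers the derivative at `1`. -/
lemma markov_refined (k : ℕ) (hk : 2 ≤ k) (R : ℝ[X]) (hdeg : R.natDegree ≤ k)
    (hbd : ∀ y ∈ Set.Icc (-1 : ℝ) 1, |R.eval y| ≤ 1) (δ : ℝ) (hδ : 0 ≤ δ)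
    (hnode : -1 + δ ≤ R.eval (Real.cos (Real.pi / k))) :
    (derivative R).eval 1 ≤ (k : ℝ) ^ 2 - δ / (1 - Real.cos (Real.pi / k)) := by
  classical
  have hinj : Set.InjOn (fun i => node k i) (Finset.range (k + 1) : Finset ℕ) :=
    (strictAntiOn_node k).injOn
  have hcard : (Finset.range (k + 1)).card = k + 1 := Finset.card_range _
  set s : Finset ℕ := Finset.range (k + 1) with hs
  set v : ℕ → ℝ := fun i => node k i with hv
  set c : ℕ → ℝ := fun i => (∏ j ∈ s.erase i, (v i - v j))⁻¹ *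
    ∑ t ∈ (s.erase i).powersetCard (s.card - (1 + 1)), ∏ a ∈ t, (1 - v a) with hc
  have hv_le : ∀ a, v a ≤ 1 := fun a => Real.cos_le_one _
  have hformula : ∀ P : ℝ[X], P.natDegree ≤ k →
      (derivative P).eval 1 = ∑ i ∈ s, P.eval (v i) * c i := by
    intro P hP
    have hPdeg : P.degree < (s.card : WithBot ℕ) := by
      rw [hcard]
      exact lt_of_le_of_lt (degree_le_of_natDegree_le hP)
        (by exact_mod_cast Nat.lt_succ_self k)
    have h := Lagrange.eval_iterate_derivative_eq_sum hinj hPdeg (k := 1)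
      (by rw [hcard]; omega) (1 : ℝ)
    simp only [Function.iterate_one, Nat.factorial_one, Nat.cast_one, one_mul] at h
    rw [h]
    refine Finset.sum_congr rfl (fun i _ => ?_)
    rw [hc]
    simp only
    rw [div_eq_mul_inv]
    ring
  have hsign : ∀ i ∈ s, 0 ≤ (-1 : ℝ) ^ i * c i := by
    intro i hi
    have hi' : i ≤ k := Nat.lt_succ_iff.1 (Finset.mem_range.1 hi)
    have h1 := inv_pos_of_pos (zero_lt_prod_node_sub_node hi')
    rw [mul_inv, ← inv_pow, inv_neg_one] at h1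
    have h2 : 0 ≤ ∑ t ∈ (s.erase i).powersetCard (s.card - (1 + 1)), ∏ a ∈ t, (1 - v a) :=
      Finset.sum_nonneg (fun t _ => Finset.prod_nonneg (fun a _ => sub_nonneg.2 (hv_le a)))
    rw [hc]
    simp only
    rw [← mul_assoc]
    exact mul_nonneg h1.le h2
  have hT : ∑ i ∈ s, (-1 : ℝ) ^ i * c i = (k : ℝ) ^ 2 := by
    have h1 := hformula (T ℝ k) (by rw [natDegree_T]; simp)
    rw [Polynomial.Chebyshev.derivative_T_eval_one] at h1
    have h2 : ∀ i ∈ s, (T ℝ k).eval (v i) * c i = (-1 : ℝ) ^ i * c i := by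
      intro i hi
      rw [hv]
      simp only
      rw [eval_T_real_node (Finset.mem_Iic.2 (Nat.lt_succ_iff.1 (Finset.mem_range.1 hi)))]
    rw [Finset.sum_congr rfl h2] at h1
    rw [← h1]
    push_cast
    ring
  have h1mem : 1 ∈ s := Finset.mem_range.2 (by omega)
  have hv1 : v 1 = Real.cos (Real.pi / k) := by
    rw [hv]; simp [node]
  have hc1 : 1 / (1 - v 1) ≤ -c 1 := by
    have h0mem : 0 ∈ s.erase 1 :=
      Finset.mem_erase.2 ⟨by norm_num, Finset.mem_range.2 (by omega)⟩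
    have hAk : ∀ j ∈ (s.erase 1).erase 0, 2 ≤ j ∧ j ≤ k := by
      intro j hj
      have h1 := Finset.mem_erase.1 hj
      have h2 := Finset.mem_erase.1 h1.2
      have h3 := Finset.mem_range.1 h2.2
      omega
    have hv0 : v 0 = 1 := node_eq_one
    have hv1lt : v 1 < 1 := by
      rw [← hv0]; exact node_lt (by omega) (by norm_num)
    have hP1 : ∀ j ∈ (s.erase 1).erase 0, 0 < v 1 - v j := fun j hj =>
      sub_pos.2 (node_lt (hAk j hj).2 (by have := (hAk j hj).1; omega))
    have hP1pos : 0 < ∏ j ∈ (s.erase 1).erase 0, (v 1 - v j) := Finset.prod_pos hP1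
    have hP12 : ∏ j ∈ (s.erase 1).erase 0, (v 1 - v j) ≤ ∏ j ∈ (s.erase 1).erase 0, (1 - v j) :=
      Finset.prod_le_prod (fun j hj => (hP1 j hj).le) (fun j hj => by linarith)
    have hprod : ∏ j ∈ s.erase 1, (v 1 - v j)
        = (v 1 - v 0) * ∏ j ∈ (s.erase 1).erase 0, (v 1 - v j) :=
      (Finset.mul_prod_erase (s.erase 1) (fun j => v 1 - v j) h0mem).symm
    have hAmem : (s.erase 1).erase 0 ∈ (s.erase 1).powersetCard (s.card - (1 + 1)) := by
      rw [Finset.mem_powersetCard]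
      refine ⟨Finset.erase_subset _ _, ?_⟩
      rw [Finset.card_erase_of_mem h0mem, Finset.card_erase_of_mem h1mem, hcard]
      omega
    have hsum : ∏ j ∈ (s.erase 1).erase 0, (1 - v j)
        ≤ ∑ t ∈ (s.erase 1).powersetCard (s.card - (1 + 1)), ∏ a ∈ t, (1 - v a) :=
      Finset.single_le_sum (f := fun t => ∏ a ∈ t, (1 - v a))
        (fun t _ => Finset.prod_nonneg (fun a _ => sub_nonneg.2 (hv_le a))) hAmem
    have hc1eq : c 1 = ((v 1 - v 0) * ∏ j ∈ (s.erase 1).erase 0, (v 1 - v j))⁻¹ *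
        ∑ t ∈ (s.erase 1).powersetCard (s.card - (1 + 1)), ∏ a ∈ t, (1 - v a) := by
      rw [hc]
      simp only
      rw [hprod]
    rw [hc1eq, hv0]
    have hpos1 : 0 < 1 - v 1 := by linarith
    generalize (∏ j ∈ (s.erase 1).erase 0, (v 1 - v j)) = P1 at hP1pos hP12 ⊢
    generalize (∑ t ∈ (s.erase 1).powersetCard (s.card - (1 + 1)), ∏ a ∈ t, (1 - v a)) = S1
      at hsum ⊢
    have e : (v 1 - 1) * P1 = -((1 - v 1) * P1) := by ring
    rw [e, inv_neg, neg_mul, neg_neg, inv_mul_eq_div,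
      div_le_div_iff₀ hpos1 (mul_pos hpos1 hP1pos)]
    nlinarith [mul_le_mul_of_nonneg_left (hP12.trans hsum) hpos1.le]
  have hmain : ∀ i ∈ s, R.eval (v i) * c i
      ≤ (-1 : ℝ) ^ i * c i - (if i = 1 then δ * (-c 1) else 0) := by
    intro i hi
    have hbi := abs_le.1 (hbd (v i) node_mem_Icc)
    have hsi := hsign i hi
    by_cases hi1 : i = 1
    · subst hi1
      rw [if_pos rfl]
      rw [pow_one] at hsi ⊢
      have hc1neg : c 1 ≤ 0 := by linarith
      rw [hv1]
      have := mul_nonneg (sub_nonneg.2 hnode) (neg_nonneg.2 hc1neg)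
      linarith
    · rw [if_neg hi1, sub_zero]
      rcases neg_one_pow_eq_or ℝ i with h | h
      · rw [h, one_mul] at hsi ⊢
        have := mul_nonneg (sub_nonneg.2 hbi.2) hsi
        linarith
      · rw [h] at hsi ⊢
        have hci : c i ≤ 0 := by linarith
        have := mul_nonneg (by linarith [hbi.1] : (0 : ℝ) ≤ R.eval (v i) + 1) (neg_nonneg.2 hci)
        linarith
  calc (derivative R).eval 1 = ∑ i ∈ s, R.eval (v i) * c i := hformula R hdeg
    _ ≤ ∑ i ∈ s, ((-1 : ℝ) ^ i * c i - (if i = 1 then δ * (-c 1) else 0)) :=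
        Finset.sum_le_sum hmain
    _ = (k : ℝ) ^ 2 - δ * (-c 1) := by
        rw [Finset.sum_sub_distrib, hT, Finset.sum_ite_eq' s 1 (fun _ => δ * (-c 1)),
          if_pos h1mem]
    _ ≤ (k : ℝ) ^ 2 - δ / (1 - Real.cos (Real.pi / k)) := by
        rw [← hv1]
        have := mul_le_mul_of_nonneg_left hc1 hδ
        rw [mul_one_div] at this
        linarith

end Vale.Agent.Lib.Cube
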