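import Mathlib
import Vale.Agent.Lib.CubeGap

open Finset Polynomial

namespace Vale.Agent.Lib.Cube

lemma expect_neg {n : ℕ} (f : (Fin n → Bool) → ℝ) (t : ℝ) :
    ∑ x, (-f x) * wt t x = -∑ x, f x * wt t x := by
  simp [neg_mul, Finset.sum_neg_distrib]

lemma fhat_neg {n : ℕ} (f : (Fin n → Bool) → ℝ) (S : Finset (Fin n)) :
    fhat (fun x => -f x) S = -fhat f S := by
  unfold fhat
  simp [neg_mul, Finset.sum_neg_distrib, neg_div]

/-- Bound on the odd part of the biased mean of a Boolean function of degree at most `d`. -/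
lemma odd_part_le {n : ℕ} (f : (Fin n → Bool) → ℝ) (hf : ∀ x, f x = 1 ∨ f x = -1) (d : ℕ)
    (hdeg : ∀ S, d < S.card → fhat f S = 0) (τ : ℝ) (hτ0 : 0 ≤ τ) (hτ1 : τ < 1) :
    (∑ x, f x * wt τ x - ∑ x, f x * wt (-τ) x) / 2
      ≤ (1 - ((1 - τ) / (1 + τ)) ^ d) / (1 + ((1 - τ) / (1 + τ)) ^ d) := by
  have hρpos : 0 < (1 - τ) / (1 + τ) := div_pos (by linarith) (by linarith)
  have hρle : (1 - τ) / (1 + τ) ≤ 1 := by rw [div_le_one (by linarith)]; linarith
  have hrpos : 0 < ((1 - τ) / (1 + τ)) ^ d := pow_pos hρpos d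
  have hrle : ((1 - τ) / (1 + τ)) ^ d ≤ 1 := pow_le_one₀ hρpos.le hρle
  by_cases hnc : (∃ x, f x = 1) ∧ (∃ y, f y = -1)
  · obtain ⟨⟨x₀, hx₀⟩, ⟨y₀, hy₀⟩⟩ := hnc
    have hPe : ∀ t : ℝ, (lpoly (fhat f)).eval t = ∑ x, f x * wt t x := by
      intro t; rw [lpoly_eval, expect_eq]
    have hP : ∀ t : ℝ, |t| < 1 → |(lpoly (fhat f)).eval t| < 1 := by
      intro t ht
      rw [hPe t, abs_lt]
      have hw := fun x : Fin n → Bool => wt_pos ht x
      constructor
      · have h0 : 0 < ∑ x, (1 + f x) * wt t x := by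
          refine Finset.sum_pos' (fun x _ => mul_nonneg ?_ (hw x).le)
            ⟨x₀, Finset.mem_univ _, ?_⟩
          · rcases hf x with h | h <;> rw [h] <;> norm_num
          · rw [hx₀]; exact mul_pos (by norm_num) (hw x₀)
        have e : ∑ x, (1 + f x) * wt t x = 1 + ∑ x, f x * wt t x := by
          simp only [add_mul, one_mul, Finset.sum_add_distrib, wt_sum]
        linarith
      · have h0 : 0 < ∑ x, (1 - f x) * wt t x := by
          refine Finset.sum_pos' (fun x _ => mul_nonneg ?_ (hw x).le)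
            ⟨y₀, Finset.mem_univ _, ?_⟩
          · rcases hf x with h | h <;> rw [h] <;> norm_num
          · rw [hy₀]; exact mul_pos (by norm_num) (hw y₀)
        have e : ∑ x, (1 - f x) * wt t x = 1 - ∑ x, f x * wt t x := by
          simp only [sub_mul, one_mul, Finset.sum_sub_distrib, wt_sum]
        linarith
    have hode : ∀ t : ℝ, |t| < 1 → (1 - t ^ 2) * (derivative (lpoly (fhat f))).eval t
        ≤ d * (1 - ((lpoly (fhat f)).eval t) ^ 2) := by
      intro t ht
      have := biased_poincare f hf d hdeg t ht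
      rwa [sum_bco_singleton, bco_empty, ← lpoly_deriv_eval, ← lpoly_eval] at this
    have := ode_bound (lpoly (fhat f)) d hP hode τ hτ0 hτ1
    rwa [hPe, hPe] at this
  · have hc : ∃ c : ℝ, ∀ x, f x = c := by
      by_cases h1 : ∃ x, f x = 1
      · refine ⟨1, fun x => ?_⟩
        rcases hf x with h | h
        · exact h
        · exact absurd ⟨h1, ⟨x, h⟩⟩ hnc
      · refine ⟨-1, fun x => ?_⟩
        rcases hf x with h | h
        · exact absurd ⟨x, h⟩ h1
        · exact h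
    obtain ⟨c, hc⟩ := hc
    have hcon : ∀ t : ℝ, ∑ x, f x * wt t x = c := by
      intro t
      simp only [hc]
      rw [← Finset.mul_sum, wt_sum, mul_one]
    rw [hcon, hcon, sub_self, zero_div]
    exact div_nonneg (by linarith) (by linarith)

/-- The quantitative gap below Markov's bound for odd degree. -/
theorem odd_gap {n : ℕ} (k : ℕ) (hk : Odd k) (hk3 : 3 ≤ k)
    (f : (Fin n → Bool) → ℝ) (hf : ∀ x, f x = 1 ∨ f x = -1)
    (hdeg : ∀ S : Finset (Fin n), k < S.card → fhat f S = 0)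
    (τ r : ℝ) (hτ : τ = Real.sin (Real.pi / (2 * k))) (hr : r = ((1 - τ) / (1 + τ)) ^ k) :
    (∑ i, fhat f {i}) ^ 2 ≤ (k : ℝ) ^ 2 - (1 - ((1 - r) / (1 + r)) ^ 2) / τ ^ 2 := by
  have hkpos : (0 : ℝ) < k := by exact_mod_cast (by omega : 0 < k)
  have hk3' : (3 : ℝ) ≤ k := by exact_mod_cast hk3
  have hxpos : 0 < Real.pi / (2 * k) := by positivity
  have hxle : Real.pi / (2 * k) ≤ Real.pi / 6 :=
    div_le_div_of_nonneg_left Real.pi_pos.le (by norm_num) (by linarith)
  have hτpos : 0 < τ := by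
    rw [hτ]; exact Real.sin_pos_of_pos_of_lt_pi hxpos (by linarith [Real.pi_pos])
  have hτle : τ ≤ Real.pi / (2 * k) := by rw [hτ]; exact Real.sin_le hxpos.le
  have hτlt : τ < 1 := by
    have := Real.pi_lt_d2
    have : Real.pi / 6 < 1 := by linarith
    linarith
  have hρpos' : 0 < (1 - τ) / (1 + τ) := div_pos (by linarith) (by linarith)
  have hρle' : (1 - τ) / (1 + τ) ≤ 1 := by rw [div_le_one (by linarith)]; linarith
  have hrpos : 0 < r := by rw [hr]; exact pow_pos hρpos' k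
  have hrle : r ≤ 1 := by rw [hr]; exact pow_le_one₀ hρpos'.le hρle'
  have hρ0 : 0 ≤ (1 - r) / (1 + r) := div_nonneg (by linarith) (by linarith)
  have hρ1 : (1 - r) / (1 + r) ≤ 1 := by rw [div_le_one (by linarith)]; linarith
  generalize hρdef : (1 - r) / (1 + r) = ρ at hρ0 hρ1 ⊢
  have ho1 : (∑ x, f x * wt τ x - ∑ x, f x * wt (-τ) x) / 2 ≤ ρ := by
    have := odd_part_le f hf k hdeg τ hτpos.le hτlt
    rw [← hr, hρdef] at this
    exact this
  have ho2 : -((∑ x, f x * wt τ x - ∑ x, f x * wt (-τ) x) / 2) ≤ ρ := by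
    have hg : ∀ x, (fun x => -f x) x = 1 ∨ (fun x => -f x) x = -1 := by
      intro x
      rcases hf x with h | h
      · right; simp [h]
      · left; simp [h]
    have hgdeg : ∀ S : Finset (Fin n), k < S.card → fhat (fun x => -f x) S = 0 := by
      intro S hS; rw [fhat_neg, hdeg S hS, neg_zero]
    have := odd_part_le (fun x => -f x) hg k hgdeg τ hτpos.le hτlt
    rw [← hr, hρdef] at this
    simp only [expect_neg] at this
    linarith
  generalize ho : (∑ x, f x * wt τ x - ∑ x, f x * wt (-τ) x) / 2 = o at ho1 ho2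
  have hosq : o ^ 2 ≤ ρ ^ 2 := by
    have : |o| ≤ ρ := abs_le.2 ⟨by linarith, ho1⟩
    calc o ^ 2 = |o| ^ 2 := (sq_abs o).symm
      _ ≤ ρ ^ 2 := pow_le_pow_left₀ (abs_nonneg o) this 2
  obtain ⟨R, hdegR, hbd, hder, hval⟩ := exists_R (fhat f) k hdeg
    (fun t ht => by
      rw [← expect_eq]
      exact abs_expect_le f (fun x => by rcases hf x with h | h <;> rw [h] <;> simp) ht)
  have hkk : 2 * ((k - 1) / 2) + 1 = k := by
    obtain ⟨m, hm⟩ := hk; omega
  rw [hkk] at hdegR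
  have hcos : Real.cos (Real.pi / k) = 1 - 2 * τ ^ 2 := by
    have e : Real.pi / k = 2 * (Real.pi / (2 * k)) := by field_simp
    rw [e, hτ]
    have h1 := Real.cos_two_mul (Real.pi / (2 * k))
    have h2 := Real.sin_sq_add_cos_sq (Real.pi / (2 * k))
    linarith
  have hRnode : R.eval (Real.cos (Real.pi / k)) = 1 - 2 * o ^ 2 := by
    rw [hcos, hval τ hτpos.le hτlt.le, ← expect_eq, ← expect_eq, ho]
  have hδ : 0 ≤ 2 * (1 - ρ ^ 2) := by nlinarith
  have hnode : -1 + 2 * (1 - ρ ^ 2) ≤ R.eval (Real.cos (Real.pi / k)) := by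
    rw [hRnode]; linarith
  have hm := markov_refined k (by omega) R hdegR hbd (2 * (1 - ρ ^ 2)) hδ hnode
  rw [hder, hcos] at hm
  have e : 2 * (1 - ρ ^ 2) / (1 - (1 - 2 * τ ^ 2)) = (1 - ρ ^ 2) / τ ^ 2 := by
    have : τ ^ 2 ≠ 0 := by positivity
    field_simp
    ring
  rw [e] at hm
  exact hm

/-- For odd `k ≥ 3`, the level-one sum of a Boolean function of degree at most `k` is at most
`(71/72) k`. -/
theorem odd_linear {n : ℕ} (k : ℕ) (hk : Odd k) (hk3 : 3 ≤ k)
    (f : (Fin n → Bool) → ℝ) (hf : ∀ x, f x = 1 ∨ f x = -1)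
    (hdeg : ∀ S : Finset (Fin n), k < S.card → fhat f S = 0) :
    ∑ i, fhat f {i} ≤ (71 / 72 : ℝ) * k := by
  have hgap := odd_gap k hk hk3 f hf hdeg (Real.sin (Real.pi / (2 * k)))
    (((1 - Real.sin (Real.pi / (2 * k))) / (1 + Real.sin (Real.pi / (2 * k)))) ^ k) rfl rfl
  have hkpos : (0 : ℝ) < k := by exact_mod_cast (by omega : 0 < k)
  have hk3' : (3 : ℝ) ≤ k := by exact_mod_cast hk3
  have hxpos : 0 < Real.pi / (2 * k) := by positivity
  have hτpos : 0 < Real.sin (Real.pi / (2 * k)) :=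
    Real.sin_pos_of_pos_of_lt_pi hxpos (by
      have : Real.pi / (2 * k) ≤ Real.pi / 6 :=
        div_le_div_of_nonneg_left Real.pi_pos.le (by norm_num) (by linarith)
      linarith [Real.pi_pos])
  have hτle : Real.sin (Real.pi / (2 * k)) ≤ Real.pi / (2 * k) := Real.sin_le hxpos.le
  generalize hτ : Real.sin (Real.pi / (2 * k)) = τ at hgap hτpos hτle
  have hkτ : k * τ ≤ 1.575 := by
    have h1 : k * τ ≤ k * (Real.pi / (2 * k)) := mul_le_mul_of_nonneg_left hτle hkpos.le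
    have h2 : (k : ℝ) * (Real.pi / (2 * k)) = Real.pi / 2 := by field_simp
    linarith [Real.pi_lt_d2]
  have hτlt : τ < 1 := by
    have : Real.pi / (2 * k) ≤ Real.pi / 6 :=
      div_le_div_of_nonneg_left Real.pi_pos.le (by norm_num) (by linarith)
    linarith [Real.pi_lt_d2]
  have hρpos' : 0 < (1 - τ) / (1 + τ) := div_pos (by linarith) (by linarith)
  have hρle' : (1 - τ) / (1 + τ) ≤ 1 := by rw [div_le_one (by linarith)]; linarith
  have hrle : ((1 - τ) / (1 + τ)) ^ k ≤ 1 := pow_le_one₀ hρpos'.le hρle'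
  have hr55 : 1 / 55 ≤ ((1 - τ) / (1 + τ)) ^ k := by
    rcases Nat.lt_or_ge k 5 with hk5 | hk5
    · have hk3eq : k = 3 := by obtain ⟨m, hm⟩ := hk; omega
      subst hk3eq
      have hx : Real.pi / (2 * ((3 : ℕ) : ℝ)) = Real.pi / 6 := by norm_num
      have hτ2 : τ = 1 / 2 := by rw [← hτ, hx, Real.sin_pi_div_six]
      rw [hτ2]; norm_num
    · have hk5' : (5 : ℝ) ≤ k := by exact_mod_cast hk5
      have hτ10 : τ ≤ 0.315 := by
        have : Real.pi / (2 * k) ≤ Real.pi / 10 :=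
          div_le_div_of_nonneg_left Real.pi_pos.le (by norm_num) (by linarith)
        linarith [Real.pi_lt_d2]
      have h1τ : 0 < 1 - τ := by linarith
      have hupos : 0 < (1 + τ) / (1 - τ) := div_pos (by linarith) h1τ
      have hu_le : (1 + τ) / (1 - τ) ≤ Real.exp (τ + τ / (1 - τ)) := by
        rw [Real.exp_add, div_eq_mul_inv]
        have e1 : 1 + τ ≤ Real.exp τ := by linarith [Real.add_one_le_exp τ]
        have e2 : (1 - τ)⁻¹ ≤ Real.exp (τ / (1 - τ)) := by
          have : (1 - τ)⁻¹ = τ / (1 - τ) + 1 := by field_simp; ring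
          rw [this]; exact Real.add_one_le_exp _
        exact mul_le_mul e1 e2 (inv_nonneg.2 h1τ.le) (Real.exp_pos _).le
      have hexp : (k : ℝ) * (τ + τ / (1 - τ)) ≤ 4 := by
        have h3 : k * τ / (1 - τ) ≤ 2.35 := by
          rw [div_le_iff₀ h1τ]; linarith
        have : (k : ℝ) * (τ + τ / (1 - τ)) = k * τ + k * τ / (1 - τ) := by ring
        rw [this]; linarith
      have hu_pow : ((1 + τ) / (1 - τ)) ^ k ≤ 55 := by
        calc ((1 + τ) / (1 - τ)) ^ k ≤ (Real.exp (τ + τ / (1 - τ))) ^ k :=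
              pow_le_pow_left₀ hupos.le hu_le k
          _ = Real.exp (k * (τ + τ / (1 - τ))) := (Real.exp_nat_mul _ _).symm
          _ ≤ Real.exp 4 := Real.exp_le_exp.2 hexp
          _ ≤ 55 := by
              have h4 : Real.exp 4 = Real.exp 1 ^ 4 := by
                rw [← Real.exp_nat_mul]; norm_num
              rw [h4]
              have h5 : Real.exp 1 ^ 4 ≤ (2.7182818286 : ℝ) ^ 4 :=
                pow_le_pow_left₀ (Real.exp_pos 1).le Real.exp_one_lt_d9.le 4
              have h6 : (2.7182818286 : ℝ) ^ 4 ≤ 55 := by norm_num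
              linarith
      have hr_eq : ((1 - τ) / (1 + τ)) ^ k = (((1 + τ) / (1 - τ)) ^ k)⁻¹ := by
        rw [← inv_pow, inv_div]
      rw [hr_eq, one_div]
      exact inv_anti₀ (pow_pos hupos k) hu_pow
  generalize hr : ((1 - τ) / (1 + τ)) ^ k = r at hgap hrle hr55
  have hrpos : 0 < r := by linarith
  have hρ : (55 : ℝ) / 784 ≤ 1 - ((1 - r) / (1 + r)) ^ 2 := by
    have e : 1 - ((1 - r) / (1 + r)) ^ 2 = 4 * r / (1 + r) ^ 2 := by
      have : (1 + r) ≠ 0 := by linarith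
      field_simp
      ring
    rw [e, le_div_iff₀ (by positivity)]
    nlinarith [mul_nonneg (by linarith : (0 : ℝ) ≤ 55 * r - 1) (by linarith : (0 : ℝ) ≤ 55 - r)]
  have hkτ2 : (k * τ) ^ 2 ≤ (1.575 : ℝ) ^ 2 :=
    pow_le_pow_left₀ (mul_pos hkpos hτpos).le hkτ 2
  have hfin : (143 / 5184 : ℝ) * (k : ℝ) ^ 2 ≤ (1 - ((1 - r) / (1 + r)) ^ 2) / τ ^ 2 := by
    rw [le_div_iff₀ (pow_pos hτpos 2)]
    have e : (143 / 5184 : ℝ) * (k : ℝ) ^ 2 * τ ^ 2 = 143 / 5184 * (k * τ) ^ 2 := by ring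
    rw [e]
    norm_num at hkτ2 ⊢
    linarith
  have hsq : (∑ i, fhat f {i}) ^ 2 ≤ ((71 / 72 : ℝ) * k) ^ 2 := by
    have : ((71 / 72 : ℝ) * k) ^ 2 = (k : ℝ) ^ 2 - 143 / 5184 * (k : ℝ) ^ 2 := by ring
    rw [this]; linarith
  by_contra hcon
  rw [not_le] at hcon
  have hpos : (0 : ℝ) ≤ 71 / 72 * k := by positivity
  nlinarith

/-- Even degree: the level-one sum is at most `d - 1`. -/
theorem even_bound {n : ℕ} (d : ℕ) (hd : Even d) (hd0 : 0 < d)
    (f : (Fin n → Bool) → ℝ) (hf : ∀ x, f x = 1 ∨ f x = -1)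
    (hdeg : ∀ S : Finset (Fin n), d < S.card → fhat f S = 0) :
    ∑ i, fhat f {i} ≤ (d : ℝ) - 1 := by
  have hf' : ∀ x, |f x| ≤ 1 := by
    intro x; rcases hf x with h | h <;> rw [h] <;> simp
  have h := sq_linear_sum_le f hf' d hdeg
  obtain ⟨m, hm⟩ := hd
  have hk : 2 * ((d - 1) / 2) + 1 = d - 1 := by omega
  rw [hk] at h
  have hd1 : ((d - 1 : ℕ) : ℝ) = (d : ℝ) - 1 := by
    rw [Nat.cast_sub (by omega)]; simp
  rw [hd1] at h
  have hnn : (0 : ℝ) ≤ (d : ℝ) - 1 := by
    have : (1 : ℝ) ≤ d := by exact_mod_cast hd0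
    linarith
  by_contra hcon
  rw [not_le] at hcon
  nlinarith [h]

/-- A linear gap below the trivial bound `d`, for every degree `d ≥ 2`. -/
theorem linear_gap {n : ℕ} (d : ℕ) (hd : 2 ≤ d)
    (f : (Fin n → Bool) → ℝ) (hf : ∀ x, f x = 1 ∨ f x = -1)
    (hdeg : ∀ S : Finset (Fin n), d < S.card → fhat f S = 0) :
    ∑ i, fhat f {i} ≤ (143 / 144 : ℝ) * d := by
  rcases Nat.even_or_odd d with he | ho
  · have h1 := even_bound d he (by omega) f hf hdeg
    have h2 := odd_linear (d + 1) (Even.add_one he) (by omega) f hf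
      (fun S hS => hdeg S (by omega))
    push_cast at h2
    by_cases hd144 : d ≤ 144
    · have : (d : ℝ) ≤ 144 := by exact_mod_cast hd144
      linarith
    · have : (145 : ℝ) ≤ d := by exact_mod_cast (by omega : 145 ≤ d)
      linarith
  · have hd3 : 3 ≤ d := by obtain ⟨m, hm⟩ := ho; omega
    have h := odd_linear d ho hd3 f hf hdeg
    have : (0 : ℝ) ≤ d := Nat.cast_nonneg d
    linarith

end Vale.Agent.Lib.Cube
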