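import Mathlib
import Vale.Agent.Lib.CubeFourier

open Finset

namespace Vale.Agent.Lib.Cube

/-- Negate coordinate `i` of the point `x`. -/
def flip {n : ℕ} (x : Fin n → Bool) (i : Fin n) : Fin n → Bool := Function.update x i (!x i)

lemma flip_flip {n : ℕ} (x : Fin n → Bool) (i : Fin n) : flip (flip x i) i = x := by
  unfold flip; simp

lemma flip_self {n : ℕ} (x : Fin n → Bool) (i : Fin n) : flip x i i = !x i := by
  unfold flip; simp

lemma flip_ne {n : ℕ} (x : Fin n → Bool) {i j : Fin n} (h : j ≠ i) : flip x i j = x j := by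
  unfold flip; simp [h]

lemma sgn_not (b : Bool) : sgn (!b) = -sgn b := by cases b <;> simp [sgn]

/-- The equivalence of the cube given by negating coordinate `i`. -/
def flipEquiv {n : ℕ} (i : Fin n) : (Fin n → Bool) ≃ (Fin n → Bool) where
  toFun x := flip x i
  invFun x := flip x i
  left_inv x := flip_flip x i
  right_inv x := flip_flip x i

lemma affine_flip {n : ℕ} (w : Fin n → ℝ) (θ : ℝ) (x : Fin n → Bool) (i : Fin n) :
    θ + ∑ j, w j * sgn (flip x i j) = (θ + ∑ j, w j * sgn (x j)) - 2 * w i * sgn (x i) := by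
  rw [← Finset.add_sum_erase _ _ (Finset.mem_univ i),
    ← Finset.add_sum_erase (f := fun j => w j * sgn (x j)) _ (Finset.mem_univ i)]
  have h1 : ∑ j ∈ univ.erase i, w j * sgn (flip x i j) = ∑ j ∈ univ.erase i, w j * sgn (x j) :=
    Finset.sum_congr rfl (fun j hj => by rw [flip_ne x (Finset.ne_of_mem_erase hj)])
  rw [h1, flip_self, sgn_not]
  ring

lemma sum_sgn_mul_sgn {n : ℕ} (i j : Fin n) :
    ∑ x : Fin n → Bool, sgn (x i) * sgn (x j) = if i = j then (2 : ℝ) ^ n else 0 := by
  have h1 : ∀ x : Fin n → Bool, sgn (x i) * sgn (x j)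
      = ∏ k, ((if k = i then sgn (x k) else 1) * (if k = j then sgn (x k) else 1)) := by
    intro x
    rw [Finset.prod_mul_distrib, Finset.prod_ite_eq' Finset.univ i (fun k => sgn (x k)),
      Finset.prod_ite_eq' Finset.univ j (fun k => sgn (x k))]
    simp
  simp only [h1]
  rw [sum_prod_bool (fun k b => (if k = i then sgn b else 1) * (if k = j then sgn b else 1))]
  simp only [sgn_false, sgn_true]
  by_cases hij : i = j
  · subst hij
    rw [if_pos rfl]
    have : ∀ k : Fin n, ((if k = i then (1 : ℝ) else 1) * (if k = i then (1 : ℝ) else 1)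
        + (if k = i then (-1 : ℝ) else 1) * (if k = i then (-1 : ℝ) else 1)) = 2 := by
      intro k; split_ifs <;> norm_num
    rw [Finset.prod_congr rfl (fun k _ => this k), Finset.prod_const, Finset.card_univ,
      Fintype.card_fin]
  · rw [if_neg hij]
    refine Finset.prod_eq_zero (Finset.mem_univ i) ?_
    simp only [if_true, if_neg hij]
    norm_num

/-- Number of sensitive (point, direction) pairs of a halfspace `[0 ≤ θ + ⟨w, x⟩]`. -/
lemma ltf_sens {n : ℕ} (w : Fin n → ℝ) (θ : ℝ) :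
    ∑ i, ((univ.filter (fun x : Fin n → Bool =>
        ¬ ((0 ≤ θ + ∑ j, w j * sgn (x j)) ↔ (0 ≤ θ + ∑ j, w j * sgn (flip x i j))))).card : ℝ)
      ≤ 2 ^ n * Real.sqrt n := by
  classical
  set ℓ : (Fin n → Bool) → ℝ := fun x => θ + ∑ j, w j * sgn (x j) with hℓ
  set g : (Fin n → Bool) → ℝ := fun x => if 0 ≤ ℓ x then 1 else -1 with hg
  set σ : Fin n → ℝ := fun i => if 0 ≤ w i then 1 else -1 with hσ
  have hflip : ∀ x i, ℓ (flip x i) = ℓ x - 2 * w i * sgn (x i) := fun x i =>
    affine_flip w θ x i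
  -- pointwise identity for the indicator of a sensitive edge
  have hind : ∀ i x, (if ¬ ((0 ≤ ℓ x) ↔ (0 ≤ ℓ (flip x i))) then (1 : ℝ) else 0)
      = σ i * sgn (x i) * ((g x - g (flip x i)) / 2) := by
    intro i x
    have hf := hflip x i
    simp only [hg, hσ]
    rcases sgn_cases (x i) with hs | hs <;> rw [hs] at hf ⊢ <;>
      by_cases hw : 0 ≤ w i <;> by_cases h1 : 0 ≤ ℓ x <;> by_cases h2 : 0 ≤ ℓ (flip x i) <;>
      simp only [hw, h1, h2, if_true, if_false, iff_true, iff_false, not_true, not_false_eq_true,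
        true_iff, false_iff, not_not] <;>
      first
        | (exfalso; rw [hf] at h2; linarith)
        | norm_num
  -- sum over x
  have hsum : ∀ i, ((univ.filter (fun x : Fin n → Bool =>
        ¬ ((0 ≤ ℓ x) ↔ (0 ≤ ℓ (flip x i))))).card : ℝ) = σ i * ∑ x, sgn (x i) * g x := by
    intro i
    rw [Finset.card_filter]
    push_cast
    rw [Finset.sum_congr rfl (fun x _ => hind i x)]
    have h2 : ∑ x, sgn (x i) * g (flip x i) = -∑ x, sgn (x i) * g x := by
      rw [← Equiv.sum_comp (flipEquiv i) (fun x => sgn (x i) * g x), ← Finset.sum_neg_distrib]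
      refine Finset.sum_congr rfl (fun x _ => ?_)
      show sgn (x i) * g (flip x i) = -(sgn (flip x i i) * g (flip x i))
      rw [flip_self, sgn_not]; ring
    have h3 : ∑ x, σ i * sgn (x i) * ((g x - g (flip x i)) / 2)
        = σ i * ((∑ x, sgn (x i) * g x - ∑ x, sgn (x i) * g (flip x i)) / 2) := by
      rw [← Finset.sum_sub_distrib, Finset.sum_div, Finset.mul_sum]
      refine Finset.sum_congr rfl (fun x _ => ?_)
      ring
    rw [h3, h2]; ring
  have hgoal : ∑ i, ((univ.filter (fun x : Fin n → Bool =>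
        ¬ ((0 ≤ ℓ x) ↔ (0 ≤ ℓ (flip x i))))).card : ℝ)
      = ∑ x, g x * ∑ i, σ i * sgn (x i) := by
    rw [Finset.sum_congr rfl (fun i _ => hsum i)]
    simp only [Finset.mul_sum]
    rw [Finset.sum_comm]
    refine Finset.sum_congr rfl (fun x _ => Finset.sum_congr rfl (fun i _ => by ring))
  show ∑ i, ((univ.filter (fun x : Fin n → Bool =>
        ¬ ((0 ≤ ℓ x) ↔ (0 ≤ ℓ (flip x i))))).card : ℝ) ≤ 2 ^ n * Real.sqrt n
  rw [hgoal]
  -- Cauchy-Schwarz
  have hcs := Finset.sum_mul_sq_le_sq_mul_sq (Finset.univ : Finset (Fin n → Bool)) g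
    (fun x => ∑ i, σ i * sgn (x i))
  have hg2 : ∑ x : Fin n → Bool, g x ^ 2 = 2 ^ n := by
    have : ∀ x : Fin n → Bool, g x ^ 2 = 1 := by
      intro x; simp only [hg]; split_ifs <;> norm_num
    rw [Finset.sum_congr rfl (fun x _ => this x)]
    simp
  have hσ2 : ∀ i, σ i * σ i = 1 := by
    intro i; simp only [hσ]; split_ifs <;> norm_num
  have hL2 : ∑ x : Fin n → Bool, (∑ i, σ i * sgn (x i)) ^ 2 = n * 2 ^ n := by
    have h1 : ∀ x : Fin n → Bool, (∑ i, σ i * sgn (x i)) ^ 2
        = ∑ i, ∑ j, σ i * σ j * (sgn (x i) * sgn (x j)) := by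
      intro x
      rw [sq, Finset.sum_mul_sum]
      refine Finset.sum_congr rfl (fun i _ => Finset.sum_congr rfl (fun j _ => by ring))
    simp only [h1]
    rw [Finset.sum_comm]
    have h2 : ∀ i : Fin n, ∑ x : Fin n → Bool, ∑ j, σ i * σ j * (sgn (x i) * sgn (x j))
        = 2 ^ n := by
      intro i
      rw [Finset.sum_comm]
      have h3 : ∀ j : Fin n, ∑ x : Fin n → Bool, σ i * σ j * (sgn (x i) * sgn (x j))
          = if i = j then (2 : ℝ) ^ n else 0 := by
        intro j
        rw [← Finset.mul_sum, sum_sgn_mul_sgn]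
        split_ifs with h
        · subst h; rw [hσ2, one_mul]
        · ring
      rw [Finset.sum_congr rfl (fun j _ => h3 j), Finset.sum_ite_eq, if_pos (Finset.mem_univ _)]
    rw [Finset.sum_congr rfl (fun i _ => h2 i), Finset.sum_const, Finset.card_univ,
      Fintype.card_fin, nsmul_eq_mul]
  rw [hg2, hL2] at hcs
  have hn : (0 : ℝ) ≤ n := Nat.cast_nonneg n
  have h2n : (0 : ℝ) < 2 ^ n := by positivity
  have hsq : (∑ x, g x * ∑ i, σ i * sgn (x i)) ^ 2 ≤ (2 ^ n * Real.sqrt n) ^ 2 := by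
    rw [mul_pow, Real.sq_sqrt hn]
    calc (∑ x, g x * ∑ i, σ i * sgn (x i)) ^ 2 ≤ 2 ^ n * (n * 2 ^ n) := hcs
      _ = (2 ^ n) ^ 2 * n := by ring
  exact abs_le_of_sq_le_sq' hsq (by positivity) |>.2

lemma sign_eq_of_iff (a b : ℝ) (h1 : 0 ≤ a ↔ 0 ≤ b) (h2 : 0 ≤ -a ↔ 0 ≤ -b) :
    SignType.sign a = SignType.sign b := by
  rcases lt_trichotomy a 0 with ha | ha | ha <;> rcases lt_trichotomy b 0 with hb | hb | hb
  · rw [sign_neg ha, sign_neg hb]
  · exfalso; subst hb; have := h1.2 le_rfl; linarith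
  · exfalso; have := h1.2 hb.le; linarith
  · exfalso; subst ha; have := h1.1 le_rfl; linarith
  · rw [ha, hb]
  · exfalso; subst ha; have := h2.1 (by simp); linarith
  · exfalso; have := h1.1 ha.le; linarith
  · exfalso; subst hb; have := h2.2 (by simp); linarith
  · rw [sign_pos ha, sign_pos hb]

lemma sign_eq_of_iff_of_ne (a b : ℝ) (h1 : 0 ≤ a ↔ 0 ≤ b) (ha0 : a ≠ 0) (hb0 : b ≠ 0) :
    SignType.sign a = SignType.sign b := by
  rcases lt_or_gt_of_ne ha0 with ha | ha <;> rcases lt_or_gt_of_ne hb0 with hb | hb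
  · rw [sign_neg ha, sign_neg hb]
  · exfalso; have := h1.2 hb.le; linarith
  · exfalso; have := h1.1 ha.le; linarith
  · rw [sign_pos ha, sign_pos hb]

lemma prod_nonneg_iff_of_sign_eq {d : ℕ} (a b : Fin d → ℝ)
    (h : ∀ k, SignType.sign (a k) = SignType.sign (b k)) :
    (0 ≤ ∏ k, a k ↔ 0 ≤ ∏ k, b k) := by
  have h1 : SignType.sign (∏ k, a k) = SignType.sign (∏ k, b k) := by
    have e1 : SignType.sign (∏ k, a k) = ∏ k, SignType.sign (a k) :=
      map_prod (signHom : ℝ →*₀ SignType) a Finset.univ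
    have e2 : SignType.sign (∏ k, b k) = ∏ k, SignType.sign (b k) :=
      map_prod (signHom : ℝ →*₀ SignType) b Finset.univ
    rw [e1, e2]
    exact Finset.prod_congr rfl (fun k _ => h k)
  rw [← sign_nonneg_iff, ← sign_nonneg_iff (a := ∏ k, b k), h1]

/-- Number of sensitive (point, direction) pairs of a real-valued function on the cube. -/
noncomputable def sensPairs {n : ℕ} (f : (Fin n → Bool) → ℝ) : ℝ :=
  ∑ i, ((univ.filter (fun x : Fin n → Bool => f x ≠ f (flip x i))).card : ℝ)

/-- Average sensitivity (total influence): `∑ i, Pr_x [f x ≠ f (x with coordinate i negated)]`. -/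
noncomputable def avgSens {n : ℕ} (f : (Fin n → Bool) → ℝ) : ℝ := sensPairs f / 2 ^ n

/-- The affine form `θ + ∑ j, w j * sgn (x j)` on the cube. -/
noncomputable def affine {n : ℕ} (w : Fin n → ℝ) (θ : ℝ) (x : Fin n → Bool) : ℝ :=
  θ + ∑ j, w j * sgn (x j)

lemma affine_neg {n : ℕ} (w : Fin n → ℝ) (θ : ℝ) (x : Fin n → Bool) :
    -affine w θ x = affine (fun j => -w j) (-θ) x := by
  unfold affine
  rw [neg_add, ← Finset.sum_neg_distrib]
  congr 1
  exact Finset.sum_congr rfl (fun j _ => by ring)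

lemma ltf_sens' {n : ℕ} (w : Fin n → ℝ) (θ : ℝ) :
    ∑ i, ((univ.filter (fun x : Fin n → Bool =>
        ¬ ((0 ≤ affine w θ x) ↔ (0 ≤ affine w θ (flip x i))))).card : ℝ)
      ≤ 2 ^ n * Real.sqrt n := ltf_sens w θ

/-- Union bound: general product of affine forms (zeros allowed). -/
lemma prod_sens_general {n d : ℕ} (w : Fin d → Fin n → ℝ) (θ : Fin d → ℝ) :
    sensPairs (fun x => if 0 ≤ ∏ k, affine (w k) (θ k) x then (1 : ℝ) else -1)
      ≤ 2 * d * (2 ^ n * Real.sqrt n) := by
  classical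
  unfold sensPairs
  have hi : ∀ i : Fin n, ((univ.filter (fun x : Fin n → Bool =>
      (if 0 ≤ ∏ k, affine (w k) (θ k) x then (1 : ℝ) else -1)
        ≠ (if 0 ≤ ∏ k, affine (w k) (θ k) (flip x i) then (1 : ℝ) else -1))).card : ℝ)
      ≤ ∑ k, (((univ.filter (fun x : Fin n → Bool =>
          ¬ ((0 ≤ affine (w k) (θ k) x) ↔ (0 ≤ affine (w k) (θ k) (flip x i))))).card : ℝ)
        + ((univ.filter (fun x : Fin n → Bool =>
          ¬ ((0 ≤ affine (fun j => -w k j) (-θ k) x)
            ↔ (0 ≤ affine (fun j => -w k j) (-θ k) (flip x i))))).card : ℝ)) := by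
    intro i
    have hsub : (univ.filter (fun x : Fin n → Bool =>
        (if 0 ≤ ∏ k, affine (w k) (θ k) x then (1 : ℝ) else -1)
          ≠ (if 0 ≤ ∏ k, affine (w k) (θ k) (flip x i) then (1 : ℝ) else -1)))
        ⊆ (Finset.univ : Finset (Fin d)).biUnion (fun k =>
          (univ.filter (fun x : Fin n → Bool =>
            ¬ ((0 ≤ affine (w k) (θ k) x) ↔ (0 ≤ affine (w k) (θ k) (flip x i)))))
          ∪ (univ.filter (fun x : Fin n → Bool =>
            ¬ ((0 ≤ affine (fun j => -w k j) (-θ k) x)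
              ↔ (0 ≤ affine (fun j => -w k j) (-θ k) (flip x i)))))) := by
      intro x hx
      rw [Finset.mem_filter] at hx
      by_contra hcon
      apply hx.2
      have hall : ∀ k, SignType.sign (affine (w k) (θ k) x)
          = SignType.sign (affine (w k) (θ k) (flip x i)) := by
        intro k
        apply sign_eq_of_iff
        · by_contra h1
          apply hcon
          rw [Finset.mem_biUnion]
          exact ⟨k, Finset.mem_univ _, Finset.mem_union_left _
            (Finset.mem_filter.2 ⟨Finset.mem_univ _, h1⟩)⟩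
        · by_contra h1
          apply hcon
          rw [Finset.mem_biUnion]
          refine ⟨k, Finset.mem_univ _, Finset.mem_union_right _
            (Finset.mem_filter.2 ⟨Finset.mem_univ _, ?_⟩)⟩
          rw [← affine_neg, ← affine_neg]
          exact h1
      have hiff := prod_nonneg_iff_of_sign_eq (fun k => affine (w k) (θ k) x)
        (fun k => affine (w k) (θ k) (flip x i)) hall
      by_cases hp : 0 ≤ ∏ k, affine (w k) (θ k) x
      · rw [if_pos hp, if_pos (hiff.1 hp)]
      · rw [if_neg hp, if_neg (fun h => hp (hiff.2 h))]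
    calc ((univ.filter (fun x : Fin n → Bool =>
          (if 0 ≤ ∏ k, affine (w k) (θ k) x then (1 : ℝ) else -1)
            ≠ (if 0 ≤ ∏ k, affine (w k) (θ k) (flip x i) then (1 : ℝ) else -1))).card : ℝ)
        ≤ (((Finset.univ : Finset (Fin d)).biUnion (fun k =>
          (univ.filter (fun x : Fin n → Bool =>
            ¬ ((0 ≤ affine (w k) (θ k) x) ↔ (0 ≤ affine (w k) (θ k) (flip x i)))))
          ∪ (univ.filter (fun x : Fin n → Bool =>
            ¬ ((0 ≤ affine (fun j => -w k j) (-θ k) x)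
              ↔ (0 ≤ affine (fun j => -w k j) (-θ k) (flip x i))))))).card : ℝ) := by
          exact_mod_cast Finset.card_le_card hsub
      _ ≤ ((∑ k, ((univ.filter (fun x : Fin n → Bool =>
            ¬ ((0 ≤ affine (w k) (θ k) x) ↔ (0 ≤ affine (w k) (θ k) (flip x i))))).card
          + (univ.filter (fun x : Fin n → Bool =>
            ¬ ((0 ≤ affine (fun j => -w k j) (-θ k) x)
              ↔ (0 ≤ affine (fun j => -w k j) (-θ k) (flip x i))))).card) : ℕ) : ℝ) := by
          refine Nat.cast_le.2 (le_trans Finset.card_biUnion_le ?_)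
          exact Finset.sum_le_sum (fun k _ => Finset.card_union_le _ _)
      _ = _ := by push_cast; rfl
  calc ∑ i, ((univ.filter (fun x : Fin n → Bool =>
        (if 0 ≤ ∏ k, affine (w k) (θ k) x then (1 : ℝ) else -1)
          ≠ (if 0 ≤ ∏ k, affine (w k) (θ k) (flip x i) then (1 : ℝ) else -1))).card : ℝ)
      ≤ ∑ i, ∑ k, (((univ.filter (fun x : Fin n → Bool =>
          ¬ ((0 ≤ affine (w k) (θ k) x) ↔ (0 ≤ affine (w k) (θ k) (flip x i))))).card : ℝ)
        + ((univ.filter (fun x : Fin n → Bool =>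
          ¬ ((0 ≤ affine (fun j => -w k j) (-θ k) x)
            ↔ (0 ≤ affine (fun j => -w k j) (-θ k) (flip x i))))).card : ℝ)) :=
        Finset.sum_le_sum (fun i _ => hi i)
    _ = ∑ k, (∑ i, ((univ.filter (fun x : Fin n → Bool =>
          ¬ ((0 ≤ affine (w k) (θ k) x) ↔ (0 ≤ affine (w k) (θ k) (flip x i))))).card : ℝ)
        + ∑ i, ((univ.filter (fun x : Fin n → Bool =>
          ¬ ((0 ≤ affine (fun j => -w k j) (-θ k) x)
            ↔ (0 ≤ affine (fun j => -w k j) (-θ k) (flip x i))))).card : ℝ)) := by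
        rw [Finset.sum_comm]
        exact Finset.sum_congr rfl (fun k _ => Finset.sum_add_distrib)
    _ ≤ ∑ _k : Fin d, (2 ^ n * Real.sqrt n + 2 ^ n * Real.sqrt n) :=
        Finset.sum_le_sum (fun k _ => add_le_add (ltf_sens' (w k) (θ k))
          (ltf_sens' (fun j => -w k j) (-θ k)))
    _ = 2 * d * (2 ^ n * Real.sqrt n) := by
        rw [Finset.sum_const, Finset.card_univ, Fintype.card_fin, nsmul_eq_mul]; ring

/-- Union bound: product of affine forms none of which vanishes on the cube. -/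
lemma prod_sens_nonvanishing {n d : ℕ} (w : Fin d → Fin n → ℝ) (θ : Fin d → ℝ)
    (hnz : ∀ k x, affine (w k) (θ k) x ≠ 0) :
    sensPairs (fun x => if 0 ≤ ∏ k, affine (w k) (θ k) x then (1 : ℝ) else -1)
      ≤ d * (2 ^ n * Real.sqrt n) := by
  classical
  unfold sensPairs
  have hi : ∀ i : Fin n, ((univ.filter (fun x : Fin n → Bool =>
      (if 0 ≤ ∏ k, affine (w k) (θ k) x then (1 : ℝ) else -1)
        ≠ (if 0 ≤ ∏ k, affine (w k) (θ k) (flip x i) then (1 : ℝ) else -1))).card : ℝ)
      ≤ ∑ k, ((univ.filter (fun x : Fin n → Bool =>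
          ¬ ((0 ≤ affine (w k) (θ k) x) ↔ (0 ≤ affine (w k) (θ k) (flip x i))))).card : ℝ) := by
    intro i
    have hsub : (univ.filter (fun x : Fin n → Bool =>
        (if 0 ≤ ∏ k, affine (w k) (θ k) x then (1 : ℝ) else -1)
          ≠ (if 0 ≤ ∏ k, affine (w k) (θ k) (flip x i) then (1 : ℝ) else -1)))
        ⊆ (Finset.univ : Finset (Fin d)).biUnion (fun k =>
          (univ.filter (fun x : Fin n → Bool =>
            ¬ ((0 ≤ affine (w k) (θ k) x) ↔ (0 ≤ affine (w k) (θ k) (flip x i)))))) := by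
      intro x hx
      rw [Finset.mem_filter] at hx
      by_contra hcon
      apply hx.2
      have hall : ∀ k, SignType.sign (affine (w k) (θ k) x)
          = SignType.sign (affine (w k) (θ k) (flip x i)) := by
        intro k
        refine sign_eq_of_iff_of_ne _ _ ?_ (hnz k x) (hnz k (flip x i))
        by_contra h1
        apply hcon
        rw [Finset.mem_biUnion]
        exact ⟨k, Finset.mem_univ _, Finset.mem_filter.2 ⟨Finset.mem_univ _, h1⟩⟩
      have hiff := prod_nonneg_iff_of_sign_eq (fun k => affine (w k) (θ k) x)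
        (fun k => affine (w k) (θ k) (flip x i)) hall
      by_cases hp : 0 ≤ ∏ k, affine (w k) (θ k) x
      · rw [if_pos hp, if_pos (hiff.1 hp)]
      · rw [if_neg hp, if_neg (fun h => hp (hiff.2 h))]
    calc ((univ.filter (fun x : Fin n → Bool =>
          (if 0 ≤ ∏ k, affine (w k) (θ k) x then (1 : ℝ) else -1)
            ≠ (if 0 ≤ ∏ k, affine (w k) (θ k) (flip x i) then (1 : ℝ) else -1))).card : ℝ)
        ≤ (((Finset.univ : Finset (Fin d)).biUnion (fun k =>
          (univ.filter (fun x : Fin n → Bool =>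
            ¬ ((0 ≤ affine (w k) (θ k) x) ↔ (0 ≤ affine (w k) (θ k) (flip x i)))))) ).card : ℝ) := by
          exact_mod_cast Finset.card_le_card hsub
      _ ≤ ((∑ k, (univ.filter (fun x : Fin n → Bool =>
            ¬ ((0 ≤ affine (w k) (θ k) x) ↔ (0 ≤ affine (w k) (θ k) (flip x i))))).card : ℕ) : ℝ) :=
          Nat.cast_le.2 Finset.card_biUnion_le
      _ = _ := by push_cast; rfl
  calc ∑ i, ((univ.filter (fun x : Fin n → Bool =>
        (if 0 ≤ ∏ k, affine (w k) (θ k) x then (1 : ℝ) else -1)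
          ≠ (if 0 ≤ ∏ k, affine (w k) (θ k) (flip x i) then (1 : ℝ) else -1))).card : ℝ)
      ≤ ∑ i, ∑ k, ((univ.filter (fun x : Fin n → Bool =>
          ¬ ((0 ≤ affine (w k) (θ k) x) ↔ (0 ≤ affine (w k) (θ k) (flip x i))))).card : ℝ) :=
        Finset.sum_le_sum (fun i _ => hi i)
    _ = ∑ k, ∑ i, ((univ.filter (fun x : Fin n → Bool =>
          ¬ ((0 ≤ affine (w k) (θ k) x) ↔ (0 ≤ affine (w k) (θ k) (flip x i))))).card : ℝ) :=
        Finset.sum_comm
    _ ≤ ∑ _k : Fin d, (2 ^ n * Real.sqrt n) :=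
        Finset.sum_le_sum (fun k _ => ltf_sens' (w k) (θ k))
    _ = d * (2 ^ n * Real.sqrt n) := by
        rw [Finset.sum_const, Finset.card_univ, Fintype.card_fin, nsmul_eq_mul]

end Vale.Agent.Lib.Cube
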