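import Mathlib

namespace Vale.Agent.Lib.LinCircuit

/-- Gates of a linear circuit.  The numbers are positions in the list of values
computed so far (the inputs, the constant `0`, then the earlier gates). -/
inductive Gate where
  | add (i j : ℕ) : Gate
  | sub (i j : ℕ) : Gate
  | smul (c : ℂ) (i : ℕ) : Gate

/-- The value a gate computes from the list `vals` of earlier values
(a position outside the list reads as `0`). -/
def Gate.val {M : Type*} [AddCommGroup M] [Module ℂ M] (vals : List M) : Gate → M
  | Gate.add i j => vals.getD i 0 + vals.getD j 0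
  | Gate.sub i j => vals.getD i 0 - vals.getD j 0
  | Gate.smul c i => c • vals.getD i 0

/-- Run the gates in order; each gate appends its value to the list. -/
def run {M : Type*} [AddCommGroup M] [Module ℂ M] : List M → List Gate → List M
  | vals, [] => vals
  | vals, g :: gs => run (vals ++ [g.val vals]) gs

/-- Number of addition/subtraction gates. -/
def binCount : List Gate → ℕ
  | [] => 0
  | Gate.add _ _ :: gs => binCount gs + 1
  | Gate.sub _ _ :: gs => binCount gs + 1
  | Gate.smul _ _ :: gs => binCount gs

/-- Number of scalar-multiplication gates. -/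
def scalCount : List Gate → ℕ
  | [] => 0
  | Gate.add _ _ :: gs => scalCount gs
  | Gate.sub _ _ :: gs => scalCount gs
  | Gate.smul _ _ :: gs => scalCount gs + 1

lemma count_add (gs : List Gate) : binCount gs + scalCount gs = gs.length := by
  induction gs with
  | nil => rfl
  | cons g gs ih =>
    cases g <;> simp only [binCount, scalCount, List.length_cons] <;> omega

section general

variable {M : Type*} [AddCommGroup M] [Module ℂ M]

lemma getD_mem (vals : List M) (h0 : (0 : M) ∈ vals) (i : ℕ) : vals.getD i 0 ∈ vals := by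
  by_cases h : i < vals.length
  · rw [List.getD_eq_getElem _ _ h]; exact List.getElem_mem h
  · rw [List.getD_eq_default _ _ (not_lt.1 h)]; exact h0

/-- Induction principle for runs: a property of (values, #binary gates, #scalar gates). -/
lemma run_induction (P : List M → ℕ → ℕ → Prop)
    (hadd : ∀ vals b s u v, u ∈ vals → v ∈ vals → P vals b s → P (vals ++ [u + v]) (b + 1) s)
    (hsub : ∀ vals b s u v, u ∈ vals → v ∈ vals → P vals b s → P (vals ++ [u - v]) (b + 1) s)
    (hsmul : ∀ vals b s (c : ℂ) u, u ∈ vals → P vals b s → P (vals ++ [c • u]) b (s + 1))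
    (gs : List Gate) : ∀ (vals : List M) (b s : ℕ), (0 : M) ∈ vals → P vals b s →
      P (run vals gs) (b + binCount gs) (s + scalCount gs) := by
  induction gs with
  | nil => intro vals b s _ hP; simpa [run, binCount, scalCount] using hP
  | cons g gs ih =>
    intro vals b s h0 hP
    have h0' : ∀ w : M, (0 : M) ∈ vals ++ [w] := fun w =>
      List.mem_append_left _ h0
    cases g with
    | add i j =>
      have := ih (vals ++ [vals.getD i 0 + vals.getD j 0]) (b + 1) s (h0' _)
        (hadd vals b s _ _ (getD_mem vals h0 i) (getD_mem vals h0 j) hP)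
      simp only [run, Gate.val, binCount, scalCount]
      rw [show b + (binCount gs + 1) = b + 1 + binCount gs by omega]
      exact this
    | sub i j =>
      have := ih (vals ++ [vals.getD i 0 - vals.getD j 0]) (b + 1) s (h0' _)
        (hsub vals b s _ _ (getD_mem vals h0 i) (getD_mem vals h0 j) hP)
      simp only [run, Gate.val, binCount, scalCount]
      rw [show b + (binCount gs + 1) = b + 1 + binCount gs by omega]
      exact this
    | smul c i =>
      have := ih (vals ++ [c • vals.getD i 0]) b (s + 1) (h0' _)
        (hsmul vals b s c _ (getD_mem vals h0 i) hP)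
      simp only [run, Gate.val, binCount, scalCount]
      rw [show s + (scalCount gs + 1) = s + 1 + scalCount gs by omega]
      exact this

/-- Runs commute with maps that preserve `0`, `+`, `-` and scalar multiplication. -/
lemma run_map {M' : Type*} [AddCommGroup M'] [Module ℂ M'] (φ : M → M') (h0 : φ 0 = 0)
    (hadd : ∀ a b, φ (a + b) = φ a + φ b) (hsub : ∀ a b, φ (a - b) = φ a - φ b)
    (hsmul : ∀ (c : ℂ) a, φ (c • a) = c • φ a) (gs : List Gate) :
    ∀ vals : List M, (run vals gs).map φ = run (vals.map φ) gs := by
  induction gs with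
  | nil => intro vals; rfl
  | cons g gs ih =>
    intro vals
    have hg : ∀ i, (vals.map φ).getD i 0 = φ (vals.getD i 0) := by
      intro i
      have := List.getD_map (l := vals) (d := (0 : M)) (n := i) φ
      rw [h0] at this
      exact this
    simp only [run]
    rw [ih]
    congr 1
    rw [List.map_append, List.map_singleton]
    congr 2
    cases g with
    | add i j => simp only [Gate.val, hadd, hg]
    | sub i j => simp only [Gate.val, hsub, hg]
    | smul c i => simp only [Gate.val, hsmul, hg]

end general

section sym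

variable {n : ℕ}

/-- Invariant used to count addition/subtraction gates: a colouring `c` of the variables such
that every computed form has its support inside one colour class, and a bound for every family
`S` of pairwise non-proportional computed forms with full support. -/
def InvA (vals : List (Fin n → ℂ)) (b : ℕ) : Prop :=
  ∃ c : Fin n → Fin n,
    (∀ v ∈ vals, ∀ p q, v p ≠ 0 → v q ≠ 0 → c p = c q) ∧
    ∀ S : Finset (Fin n → ℂ), (∀ v ∈ S, v ∈ vals ∧ ∀ p, v p ≠ 0) →
      (∀ v ∈ S, ∀ w ∈ S, v ≠ w → ∀ μ : ℂ, w ≠ μ • v) →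
      (n - (Finset.univ.image c).card) + (S.card - 1) ≤ b

lemma mem_append_singleton_of_ne {α : Type*} {l : List α} {w z : α} (h : z ∈ l ++ [w])
    (hne : z ≠ w) : z ∈ l := by
  rw [List.mem_append, List.mem_singleton] at h
  rcases h with h | h
  · exact h
  · exact absurd h hne

lemma invA_bin (vals : List (Fin n → ℂ)) (b : ℕ) (u v w : Fin n → ℂ) (hu : u ∈ vals)
    (hv : v ∈ vals) (hw : ∀ p, w p ≠ 0 → u p ≠ 0 ∨ v p ≠ 0) (h : InvA vals b) :
    InvA (vals ++ [w]) (b + 1) := by
  classical
  obtain ⟨c, hmono, hS⟩ := h
  by_cases hcase : ∃ a a', u a ≠ 0 ∧ v a' ≠ 0 ∧ c a ≠ c a'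
  · obtain ⟨a, a', hua, hva', hne⟩ := hcase
    have key : ∀ p, w p ≠ 0 → (if c p = c a' then c a else c p) = c a := by
      intro p hp
      rcases hw p hp with h1 | h1
      · have h2 : c p = c a := hmono u hu p a h1 hua
        rw [h2]; simp
      · have h2 : c p = c a' := hmono v hv p a' h1 hva'
        rw [if_pos h2]
    refine ⟨fun x => if c x = c a' then c a else c x, ?_, ?_⟩
    · intro z hz p q hp hq
      by_cases hzw : z = w
      · show (if c p = c a' then c a else c p) = (if c q = c a' then c a else c q)
        rw [key p (hzw ▸ hp), key q (hzw ▸ hq)]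
      · have h1 := hmono z (mem_append_singleton_of_ne hz hzw) p q hp hq
        show (if c p = c a' then c a else c p) = (if c q = c a' then c a else c q)
        rw [h1]
    · intro S hSmem hSpair
      have hnofull : ∀ z ∈ vals, ¬ (∀ p, z p ≠ 0) := by
        intro z hz hfull
        exact hne (hmono z hz a a' (hfull a) (hfull a'))
      have hSsub : ∀ z ∈ S, z = w := by
        intro z hz
        by_contra hzw
        exact hnofull z (mem_append_singleton_of_ne (hSmem z hz).1 hzw) (hSmem z hz).2
      have hcard : S.card ≤ 1 :=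
        Finset.card_le_one.2 (fun x hx y hy => by rw [hSsub x hx, hSsub y hy])
      have h0 := hS ∅ (by simp) (by simp)
      have himg : (Finset.univ.image c).card
          ≤ (Finset.univ.image (fun x => if c x = c a' then c a else c x)).card + 1 := by
        have hsub : (Finset.univ.image c).erase (c a')
            ⊆ Finset.univ.image (fun x => if c x = c a' then c a else c x) := by
          intro y hy
          rw [Finset.mem_erase, Finset.mem_image] at hy
          obtain ⟨hy1, x, _, hx⟩ := hy
          rw [Finset.mem_image]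
          refine ⟨x, Finset.mem_univ _, ?_⟩
          rw [if_neg (by rw [hx]; exact hy1), hx]
        have h1 := Finset.card_le_card hsub
        have h2 := Finset.pred_card_le_card_erase (s := Finset.univ.image c) (a := c a')
        omega
      simp only [Finset.card_empty] at h0
      omega
  · have hsame : ∀ a a', u a ≠ 0 → v a' ≠ 0 → c a = c a' := by
      intro a a' h1 h2
      by_contra h3
      exact hcase ⟨a, a', h1, h2, h3⟩
    refine ⟨c, ?_, ?_⟩
    · intro z hz p q hp hq
      by_cases hzw : z = w
      · rw [hzw] at hp hq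
        rcases hw p hp with h1 | h1 <;> rcases hw q hq with h2 | h2
        · exact hmono u hu p q h1 h2
        · exact hsame p q h1 h2
        · exact (hsame q p h2 h1).symm
        · exact hmono v hv p q h1 h2
      · exact hmono z (mem_append_singleton_of_ne hz hzw) p q hp hq
    · intro S hSmem hSpair
      by_cases hwS : w ∈ S
      · have h1 := hS (S.erase w)
          (fun z hz => ⟨mem_append_singleton_of_ne (hSmem z (Finset.mem_of_mem_erase hz)).1
            (Finset.ne_of_mem_erase hz), (hSmem z (Finset.mem_of_mem_erase hz)).2⟩)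
          (fun z hz z' hz' hne => hSpair z (Finset.mem_of_mem_erase hz) z'
            (Finset.mem_of_mem_erase hz') hne)
        have hc : (S.erase w).card = S.card - 1 := Finset.card_erase_of_mem hwS
        omega
      · have h1 := hS S
          (fun z hz => ⟨mem_append_singleton_of_ne (hSmem z hz).1
            (fun h => hwS (h ▸ hz)), (hSmem z hz).2⟩) hSpair
        omega

lemma invA_smul (vals : List (Fin n → ℂ)) (b : ℕ) (μ₀ : ℂ) (u w : Fin n → ℂ) (hu : u ∈ vals)
    (hw : w = μ₀ • u) (h : InvA vals b) : InvA (vals ++ [w]) b := by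
  classical
  obtain ⟨c, hmono, hS⟩ := h
  refine ⟨c, ?_, ?_⟩
  · intro z hz p q hp hq
    by_cases hzw : z = w
    · rw [hzw, hw] at hp hq
      have h1 : u p ≠ 0 := fun h => hp (by simp [h])
      have h2 : u q ≠ 0 := fun h => hq (by simp [h])
      exact hmono u hu p q h1 h2
    · exact hmono z (mem_append_singleton_of_ne hz hzw) p q hp hq
  · intro S hSmem hSpair
    by_cases hwv : w ∈ vals
    · refine hS S (fun z hz => ⟨?_, (hSmem z hz).2⟩) hSpair
      by_cases hzw : z = w
      · rw [hzw]; exact hwv
      · exact mem_append_singleton_of_ne (hSmem z hz).1 hzw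
    by_cases hwS : w ∈ S
    · have hwfull := (hSmem w hwS).2
      have hufull : ∀ p, u p ≠ 0 := fun p h => hwfull p (by simp [hw, h])
      have huw : u ≠ w := fun h => hwv (h ▸ hu)
      have hμ0 : μ₀ ≠ 0 := by
        intro h0
        obtain ⟨p, _⟩ := Function.ne_iff.1 huw
        exact hwfull p (by simp [hw, h0])
      have huS : u ∉ S.erase w := by
        intro h
        rw [Finset.mem_erase] at h
        exact hSpair u h.2 w hwS huw μ₀ hw
      have h1 := hS (insert u (S.erase w)) ?_ ?_
      · rw [Finset.card_insert_of_notMem huS, Finset.card_erase_of_mem hwS] at h1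
        have hpos : 0 < S.card := Finset.card_pos.2 ⟨w, hwS⟩
        omega
      · intro z hz
        rw [Finset.mem_insert] at hz
        rcases hz with hzu | hz
        · rw [hzu]; exact ⟨hu, hufull⟩
        · exact ⟨mem_append_singleton_of_ne (hSmem z (Finset.mem_of_mem_erase hz)).1
            (Finset.ne_of_mem_erase hz), (hSmem z (Finset.mem_of_mem_erase hz)).2⟩
      · intro z hz z' hz' hne ν hν
        rw [Finset.mem_insert] at hz hz'
        rcases hz with hzu | hz <;> rcases hz' with hzu' | hz'
        · exact hne (hzu.trans hzu'.symm)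
        · refine hSpair w hwS z' (Finset.mem_of_mem_erase hz')
            (Ne.symm (Finset.ne_of_mem_erase hz')) (ν * μ₀⁻¹) ?_
          rw [hν, hzu, hw, smul_smul, mul_assoc, inv_mul_cancel₀ hμ0, mul_one]
        · refine hSpair z (Finset.mem_of_mem_erase hz) w hwS
            (Finset.ne_of_mem_erase hz) (μ₀ * ν) ?_
          rw [hw, ← hzu', hν, smul_smul]
        · exact hSpair z (Finset.mem_of_mem_erase hz) z' (Finset.mem_of_mem_erase hz') hne ν hν
    · exact hS S (fun z hz => ⟨mem_append_singleton_of_ne (hSmem z hz).1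
        (fun h => hwS (h ▸ hz)), (hSmem z hz).2⟩) hSpair

/-- The initial values: the `n` coordinate forms and the constant `0`. -/
def init (n : ℕ) : List (Fin n → ℂ) :=
  List.ofFn (fun k : Fin n => (Pi.single k 1 : Fin n → ℂ)) ++ [0]

lemma mem_init {v : Fin n → ℂ} (hv : v ∈ init n) : (∃ k, v = Pi.single k 1) ∨ v = 0 := by
  unfold init at hv
  rw [List.mem_append, List.mem_singleton, List.mem_ofFn] at hv
  rcases hv with ⟨k, hk⟩ | hv
  · exact Or.inl ⟨k, hk.symm⟩
  · exact Or.inr hv

lemma invA_init (hn : 2 ≤ n) : InvA (init n) 0 := by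
  classical
  refine ⟨id, ?_, ?_⟩
  · intro v hv p q hp hq
    rcases mem_init hv with ⟨k, hk⟩ | h0
    · rw [hk, Pi.single_apply] at hp hq
      have h1 : p = k := by by_contra h; exact hp (if_neg h)
      have h2 : q = k := by by_contra h; exact hq (if_neg h)
      simp [h1, h2]
    · rw [h0] at hp; exact absurd rfl hp
  · intro S hSmem _
    have hSempty : S = ∅ := by
      rw [Finset.eq_empty_iff_forall_notMem]
      intro v hv
      obtain ⟨hvi, hfull⟩ := hSmem v hv
      rcases mem_init hvi with ⟨k, hk⟩ | h0
      · by_cases hk0 : k = ⟨0, by omega⟩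
        · apply hfull ⟨1, by omega⟩
          rw [hk, Pi.single_apply, if_neg]
          rw [hk0]; intro h; simp [Fin.ext_iff] at h
        · apply hfull ⟨0, by omega⟩
          rw [hk, Pi.single_apply, if_neg]
          exact fun h => hk0 h.symm
      · exact hfull ⟨0, by omega⟩ (by rw [h0]; rfl)
    rw [hSempty, Finset.image_id, Finset.card_univ, Fintype.card_fin]
    simp

/-- Final step for the addition/subtraction count. -/
lemma invA_final (vals : List (Fin n → ℂ)) (b : ℕ) (hn : 1 ≤ n) (h : InvA vals b)
    (r : Fin n → (Fin n → ℂ)) (hrv : ∀ j, r j ∈ vals) (hfull : ∀ j p, r j p ≠ 0)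
    (hpair : ∀ i j, i ≠ j → ∀ μ : ℂ, r j ≠ μ • r i) : 2 * n - 2 ≤ b := by
  classical
  obtain ⟨c, hmono, hS⟩ := h
  have hinj : Function.Injective r := by
    intro i j hij
    by_contra hne
    exact hpair i j hne 1 (by rw [one_smul, hij])
  have h1 := hS (Finset.univ.image r)
    (fun v hv => by
      rw [Finset.mem_image] at hv
      obtain ⟨j, _, hj⟩ := hv
      rw [← hj]; exact ⟨hrv j, hfull j⟩)
    (fun v hv w hw hne μ hμ => by
      rw [Finset.mem_image] at hv hw
      obtain ⟨i, _, hi⟩ := hv
      obtain ⟨j, _, hj⟩ := hw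
      rw [← hi, ← hj] at hμ
      refine hpair i j ?_ μ hμ
      intro hij
      apply hne
      rw [← hi, ← hj, hij])
  rw [Finset.card_image_of_injective _ hinj, Finset.card_univ, Fintype.card_fin] at h1
  have himg : (Finset.univ.image c).card ≤ 1 := by
    rw [Finset.card_le_one]
    intro x hx y hy
    rw [Finset.mem_image] at hx hy
    obtain ⟨p, _, hp⟩ := hx
    obtain ⟨q, _, hq⟩ := hy
    rw [← hp, ← hq]
    exact hmono (r ⟨0, by omega⟩) (hrv _) p q (hfull _ p) (hfull _ q)
  omega

end sym

section scal

open Cardinal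

variable {n : ℕ}

/-- Invariant used to count scalar gates: all computed forms lie in the rational span of a set
of at most `n + s` vectors. -/
def InvB (vals : List (Fin n → ℂ)) (s : ℕ) : Prop :=
  ∃ T : Finset (Fin n → ℂ), T.card ≤ n + s ∧
    ∀ v ∈ vals, v ∈ Submodule.span ℚ (T : Set (Fin n → ℂ))

lemma invB_init : InvB (init n) 0 := by
  classical
  refine ⟨Finset.univ.image (fun k : Fin n => (Pi.single k 1 : Fin n → ℂ)), ?_, ?_⟩
  · have := Finset.card_image_le (s := (Finset.univ : Finset (Fin n)))
      (f := fun k : Fin n => (Pi.single k 1 : Fin n → ℂ))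
    rw [Finset.card_univ, Fintype.card_fin] at this
    omega
  · intro v hv
    rcases mem_init hv with ⟨k, hk⟩ | h0
    · apply Submodule.subset_span
      rw [hk, Finset.mem_coe, Finset.mem_image]
      exact ⟨k, Finset.mem_univ _, rfl⟩
    · rw [h0]; exact Submodule.zero_mem _

lemma invB_bin (vals : List (Fin n → ℂ)) (s : ℕ) (w : Fin n → ℂ)
    (hw : ∀ T : Finset (Fin n → ℂ),
      (∀ v ∈ vals, v ∈ Submodule.span ℚ (T : Set (Fin n → ℂ))) →
        w ∈ Submodule.span ℚ (T : Set (Fin n → ℂ)))
    (h : InvB vals s) : InvB (vals ++ [w]) s := by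
  obtain ⟨T, hT, hmem⟩ := h
  refine ⟨T, hT, ?_⟩
  intro v hv
  rw [List.mem_append, List.mem_singleton] at hv
  rcases hv with hv | hv
  · exact hmem v hv
  · rw [hv]; exact hw T hmem

lemma invB_smul (vals : List (Fin n → ℂ)) (s : ℕ) (w : Fin n → ℂ) (h : InvB vals s) :
    InvB (vals ++ [w]) (s + 1) := by
  classical
  obtain ⟨T, hT, hmem⟩ := h
  refine ⟨insert w T, ?_, ?_⟩
  · have := Finset.card_insert_le w T
    omega
  · intro v hv
    rw [List.mem_append, List.mem_singleton] at hv
    rcases hv with hv | hv
    · refine Submodule.span_mono ?_ (hmem v hv)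
      rw [Finset.coe_insert]
      exact Set.subset_insert _ _
    · apply Submodule.subset_span
      rw [hv, Finset.mem_coe]
      exact Finset.mem_insert_self _ _

/-- Row `j` of the Fourier matrix built from `ζ`. -/
def row (n : ℕ) (ζ : ℂ) (j : ℕ) : Fin n → ℂ := fun k => ζ ^ (j * (k : ℕ))

lemma pow_indep {ζ : ℂ} (hn : 1 ≤ n) (hζ : IsPrimitiveRoot ζ n) :
    LinearIndependent ℚ (fun i : Fin (Nat.totient n) => ζ ^ (i : ℕ)) := by
  have h1 := linearIndependent_pow (K := ℚ) ζ
  have h2 : (minpoly ℚ ζ).natDegree = Nat.totient n := by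
    rw [← Polynomial.cyclotomic_eq_minpoly_rat hζ (by omega), Polynomial.natDegree_cyclotomic]
  rw [h2] at h1
  exact h1

lemma invB_final (vals : List (Fin n → ℂ)) (s : ℕ) (hn : 2 ≤ n) (h : InvB vals s) {ζ : ℂ}
    (hζ : IsPrimitiveRoot ζ n)
    (he : ∀ k : Fin n, (Pi.single k 1 : Fin n → ℂ) ∈ vals)
    (hr : ∀ j : Fin n, row n ζ j ∈ vals) : Nat.totient n - 1 ≤ s := by
  classical
  obtain ⟨T, hT, hmem⟩ := h
  have hpow := pow_indep (by omega) hζ
  obtain ⟨m, hm⟩ : ∃ m, Nat.totient n = m + 1 :=
    Nat.exists_eq_succ_of_ne_zero (Nat.totient_pos.2 (by omega)).ne'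
  rw [hm] at hpow
  have hmn : m + 1 ≤ n := hm ▸ Nat.totient_le n
  set F : Fin n ⊕ Fin m → (Fin n → ℂ) :=
    Sum.elim (fun k => (Pi.single k 1 : Fin n → ℂ)) (fun j => row n ζ ((j : ℕ) + 1)) with hF
  have hsingle : ∀ (a : Fin n → ℚ) (p : Fin n),
      (∑ k, a k • (Pi.single k 1 : Fin n → ℂ)) p = (a p : ℂ) := by
    intro a p
    rw [Finset.sum_apply]
    rw [Finset.sum_eq_single p]
    · rw [Pi.smul_apply, Pi.single_eq_same]
      simp
    · intro k _ hk
      rw [Pi.smul_apply, Pi.single_apply, if_neg (Ne.symm hk), smul_zero]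
    · intro h; exact absurd (Finset.mem_univ p) h
  have hind : LinearIndependent ℚ F := by
    rw [Fintype.linearIndependent_iff]
    intro g hg
    rw [Fintype.sum_sum_type] at hg
    simp only [hF, Sum.elim_inl, Sum.elim_inr] at hg
    -- coordinate 1
    have h1 := congrFun hg ⟨1, by omega⟩
    rw [Pi.add_apply, hsingle, Finset.sum_apply] at h1
    simp only [Pi.smul_apply, row, mul_one, Pi.zero_apply] at h1
    have hh := Fintype.linearIndependent_iff.1 hpow
      (Fin.cons (g (Sum.inl ⟨1, by omega⟩)) (fun j => g (Sum.inr j))) (by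
        rw [Fin.sum_univ_succ]
        simp only [Fin.cons_zero, Fin.cons_succ, Fin.val_zero, pow_zero, Fin.val_succ]
        rw [← h1]
        congr 1
        simp)
    have hq : ∀ j : Fin m, g (Sum.inr j) = 0 := by
      intro j
      have := hh j.succ
      simpa using this
    have hg2 : ∑ k, g (Sum.inl k) • (Pi.single k 1 : Fin n → ℂ) = 0 := by
      have : ∑ j : Fin m, g (Sum.inr j) • row n ζ ((j : ℕ) + 1) = 0 :=
        Finset.sum_eq_zero (fun j _ => by rw [hq j, zero_smul])
      rw [this, add_zero] at hg
      exact hg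
    intro i
    rcases i with k | j
    · have := congrFun hg2 k
      rw [hsingle] at this
      simpa using this
    · exact hq j
  have hrange : Set.range F ≤ Submodule.span ℚ (T : Set (Fin n → ℂ)) := by
    rintro _ ⟨i, rfl⟩
    rcases i with k | j
    · exact hmem _ (he k)
    · have := hr ⟨(j : ℕ) + 1, by omega⟩
      exact hmem _ this
  have hcard : #(Fin n ⊕ Fin m) ≤ (T.card : Cardinal) := by
    simpa only [Finset.coe_sort_coe, Fintype.card_coe] using
      linearIndependent_le_span' F hind (T : Set (Fin n → ℂ)) hrange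
  rw [Cardinal.mk_fintype, Fintype.card_sum, Fintype.card_fin, Fintype.card_fin] at hcard
  have hcard' : n + m ≤ T.card := by exact_mod_cast hcard
  omega

end scal

section main

variable {n : ℕ}

/-- Evaluation of a linear form (coefficient vector) at a point. -/
def evalAt (x : Fin n → ℂ) (v : Fin n → ℂ) : ℂ := ∑ k, v k * x k

lemma evalAt_single (x : Fin n → ℂ) (k : Fin n) : evalAt x (Pi.single k 1) = x k := by
  classical
  unfold evalAt
  rw [Finset.sum_eq_single k]
  · rw [Pi.single_eq_same, one_mul]
  · intro j _ hj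
    rw [Pi.single_apply, if_neg hj, zero_mul]
  · intro h; exact absurd (Finset.mem_univ k) h

lemma evalAt_single' (v : Fin n → ℂ) (p : Fin n) : evalAt (Pi.single p 1) v = v p := by
  classical
  unfold evalAt
  rw [Finset.sum_eq_single p]
  · rw [Pi.single_eq_same, mul_one]
  · intro j _ hj
    rw [Pi.single_apply, if_neg hj, mul_zero]
  · intro h; exact absurd (Finset.mem_univ p) h

lemma init_map (x : Fin n → ℂ) : (init n).map (evalAt x) = List.ofFn x ++ [0] := by
  unfold init
  rw [List.map_append, List.map_ofFn, List.map_singleton]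
  congr 1
  · congr 1
    funext k
    exact evalAt_single x k
  · simp [evalAt]

/-- The symbolic run computes the coefficient vectors of the forms computed by the circuit. -/
lemma run_sym (x : Fin n → ℂ) (gs : List Gate) (i : ℕ) :
    (run (List.ofFn x ++ [0]) gs).getD i 0 = evalAt x ((run (init n) gs).getD i 0) := by
  have h := run_map (evalAt x) (by simp [evalAt])
    (fun a b => by simp [evalAt, add_mul, Finset.sum_add_distrib])
    (fun a b => by simp [evalAt, sub_mul, Finset.sum_sub_distrib])
    (fun c a => by simp [evalAt, Finset.mul_sum, mul_assoc]) gs (init n)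
  rw [init_map] at h
  rw [← h]
  have h2 := List.getD_map (l := run (init n) gs) (d := (0 : Fin n → ℂ)) (n := i) (evalAt x)
  rw [← h2]
  congr 1
  simp [evalAt]

/-- Main counting theorem for linear circuits computing the Fourier matrix of a primitive
`n`-th root of unity `ζ`. -/
theorem main_count (hn : 2 ≤ n) {ζ : ℂ} (hζ : IsPrimitiveRoot ζ n) (gs : List Gate)
    (out : Fin n → ℕ)
    (h : ∀ (x : Fin n → ℂ) (j : Fin n),
      (run (List.ofFn x ++ [0]) gs).getD (out j) 0
        = ∑ k : Fin n, ζ ^ ((j : ℕ) * (k : ℕ)) * x k) :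
    2 * n - 2 ≤ binCount gs ∧ Nat.totient n - 1 ≤ scalCount gs ∧
      2 * n + Nat.totient n - 3 ≤ gs.length := by
  classical
  -- the invariant along the symbolic run
  have hrun := run_induction (M := Fin n → ℂ)
    (fun vals b s => InvA vals b ∧ InvB vals s ∧ (0 : Fin n → ℂ) ∈ vals ∧
      ∀ k : Fin n, (Pi.single k 1 : Fin n → ℂ) ∈ vals)
    (by
      intro vals b s u v hu hv hP
      refine ⟨invA_bin vals b u v (u + v) hu hv ?_ hP.1,
        invB_bin vals s (u + v) (fun T hT => Submodule.add_mem _ (hT u hu) (hT v hv)) hP.2.1,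
        List.mem_append_left _ hP.2.2.1, fun k => List.mem_append_left _ (hP.2.2.2 k)⟩
      intro p hp
      by_contra hcon
      rw [not_or, not_not, not_not] at hcon
      exact hp (by simp [hcon.1, hcon.2]))
    (by
      intro vals b s u v hu hv hP
      refine ⟨invA_bin vals b u v (u - v) hu hv ?_ hP.1,
        invB_bin vals s (u - v) (fun T hT => Submodule.sub_mem _ (hT u hu) (hT v hv)) hP.2.1,
        List.mem_append_left _ hP.2.2.1, fun k => List.mem_append_left _ (hP.2.2.2 k)⟩
      intro p hp
      by_contra hcon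
      rw [not_or, not_not, not_not] at hcon
      exact hp (by simp [hcon.1, hcon.2]))
    (by
      intro vals b s c u hu hP
      exact ⟨invA_smul vals b c u (c • u) hu rfl hP.1, invB_smul vals s (c • u) hP.2.1,
        List.mem_append_left _ hP.2.2.1, fun k => List.mem_append_left _ (hP.2.2.2 k)⟩)
    gs (init n) 0 0 (by unfold init; simp)
    ⟨invA_init hn, invB_init, by unfold init; simp, fun k => by
      unfold init
      rw [List.mem_append, List.mem_ofFn]
      exact Or.inl ⟨k, rfl⟩⟩
  rw [Nat.zero_add, Nat.zero_add] at hrun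
  obtain ⟨hA, hB, h0, he⟩ := hrun
  -- the outputs are the rows
  have hrow : ∀ j : Fin n, (run (init n) gs).getD (out j) 0 = row n ζ j := by
    intro j
    funext p
    have h1 := h (Pi.single p 1) j
    rw [run_sym, evalAt_single'] at h1
    rw [h1]
    have h2 := evalAt_single' (fun k : Fin n => ζ ^ ((j : ℕ) * (k : ℕ))) p
    unfold evalAt at h2
    rw [h2]
    rfl
  have hrv : ∀ j : Fin n, row n ζ j ∈ run (init n) gs := by
    intro j
    rw [← hrow j]
    exact getD_mem _ h0 _
  have hζ0 : ζ ≠ 0 := hζ.ne_zero (by omega)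
  have hbin : 2 * n - 2 ≤ binCount gs := by
    refine invA_final _ _ (by omega) hA (fun j : Fin n => row n ζ j) hrv ?_ ?_
    · intro j p
      exact pow_ne_zero _ hζ0
    · intro i j hij μ hμ
      have e0 := congrFun hμ ⟨0, by omega⟩
      have e1 := congrFun hμ ⟨1, by omega⟩
      simp only [row, Pi.smul_apply, mul_zero, pow_zero, mul_one, smul_eq_mul] at e0 e1
      rw [← e0, one_mul] at e1
      exact hij (Fin.ext (hζ.pow_inj i.2 j.2 e1.symm))
  have hscal : Nat.totient n - 1 ≤ scalCount gs := invB_final _ _ hn hB hζ he hrv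
  refine ⟨hbin, hscal, ?_⟩
  have hlen := count_add gs
  have hφ : 0 < Nat.totient n := Nat.totient_pos.2 (by omega)
  omega

end main

end Vale.Agent.Lib.LinCircuit
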