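import Mathlib
import Vale.Agent.Lib.LinCircuit

open Module

namespace Vale.Agent.Lib.LinCircuit

section divisors

variable {n : ℕ}

/-- Indicator vector of the class of positions `k` with `gcd k n = g`. -/
def gcdInd (n g : ℕ) : Fin n → ℂ := fun k => if Nat.gcd (k : ℕ) n = g then 1 else 0

/-- The rational polynomial with coefficient vector `q`. -/
noncomputable def qpoly (q : Fin n → ℚ) : Polynomial ℚ :=
  ∑ j : Fin n, Polynomial.C (q j) * Polynomial.X ^ (j : ℕ)

lemma qpoly_aeval (q : Fin n → ℚ) (z : ℂ) :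
    Polynomial.aeval z (qpoly q) = ∑ j : Fin n, (q j : ℂ) * z ^ (j : ℕ) := by
  simp [qpoly, map_sum]

lemma qpoly_coeff (q : Fin n → ℚ) (j : Fin n) : (qpoly q).coeff (j : ℕ) = q j := by
  classical
  unfold qpoly
  rw [Polynomial.finsetSum_coeff]
  rw [Finset.sum_eq_single j]
  · rw [Polynomial.coeff_C_mul_X_pow, if_pos rfl]
  · intro i _ hij
    rw [Polynomial.coeff_C_mul_X_pow, if_neg]
    intro h
    exact hij (Fin.ext h.symm)
  · intro h; exact absurd (Finset.mem_univ j) h

lemma qpoly_natDegree_lt (hn : 0 < n) (q : Fin n → ℚ) : (qpoly q).natDegree < n := by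
  unfold qpoly
  have h1 : (∑ j : Fin n, Polynomial.C (q j) * Polynomial.X ^ (j : ℕ)).natDegree ≤ n - 1 := by
    apply Polynomial.natDegree_sum_le_of_forall_le
    intro j _
    refine (Polynomial.natDegree_C_mul_X_pow_le _ _).trans ?_
    have := j.2
    omega
  omega

lemma single_sum_apply (a : Fin n → ℚ) (p : Fin n) :
    (∑ k, a k • (Pi.single k 1 : Fin n → ℂ)) p = (a p : ℂ) := by
  classical
  rw [Finset.sum_apply]
  rw [Finset.sum_eq_single p]
  · rw [Pi.smul_apply, Pi.single_eq_same]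
    simp
  · intro k _ hk
    rw [Pi.smul_apply, Pi.single_apply, if_neg (Ne.symm hk), smul_zero]
  · intro h; exact absurd (Finset.mem_univ p) h

lemma row_sum_apply (ζ : ℂ) (q : Fin n → ℚ) (k : Fin n) :
    (∑ j, q j • row n ζ j) k = Polynomial.aeval (ζ ^ (k : ℕ)) (qpoly q) := by
  rw [qpoly_aeval, Finset.sum_apply]
  refine Finset.sum_congr rfl (fun j _ => ?_)
  rw [Pi.smul_apply, row, ← pow_mul, mul_comm (k : ℕ) (j : ℕ)]
  exact (Rat.smul_def _ _).trans rfl

lemma single_indep :
    LinearIndependent ℚ (fun k : Fin n => (Pi.single k 1 : Fin n → ℂ)) := by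
  rw [Fintype.linearIndependent_iff]
  intro g hg i
  have h := congrFun hg i
  rw [single_sum_apply] at h
  simpa using h

lemma row_indep {ζ : ℂ} (hn : 0 < n) (hζ : IsPrimitiveRoot ζ n) :
    LinearIndependent ℚ (fun j : Fin n => row n ζ j) := by
  rw [Fintype.linearIndependent_iff]
  intro q hq
  have hroot : ∀ k : Fin n,
      ((qpoly q).map (algebraMap ℚ ℂ)).eval (ζ ^ (k : ℕ)) = 0 := by
    intro k
    rw [Polynomial.eval_map_algebraMap, ← row_sum_apply, hq]
    rfl
  have hinj : Function.Injective (fun k : Fin n => ζ ^ (k : ℕ)) := by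
    intro a b hab
    exact Fin.ext (hζ.pow_inj a.2 b.2 hab)
  have hzero : (qpoly q).map (algebraMap ℚ ℂ) = 0 := by
    apply Polynomial.eq_zero_of_natDegree_lt_card_of_eval_eq_zero _ hinj hroot
    rw [Fintype.card_fin]
    exact lt_of_le_of_lt Polynomial.natDegree_map_le (qpoly_natDegree_lt hn q)
  have hq0 : qpoly q = 0 := by
    apply Polynomial.map_injective (algebraMap ℚ ℂ) (algebraMap ℚ ℂ).injective
    rw [hzero, Polynomial.map_zero]
  intro j
  rw [← qpoly_coeff q j, hq0, Polynomial.coeff_zero]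

/-- Rational polynomial values at roots of unity depend only on the gcd class. -/
lemma class_const {ζ : ℂ} (hn : 0 < n) (hζ : IsPrimitiveRoot ζ n) (P : Polynomial ℚ) (c : ℚ)
    (k k' : ℕ) (hg : Nat.gcd n k = Nat.gcd n k')
    (hk : Polynomial.aeval (ζ ^ k) P = (c : ℂ)) : Polynomial.aeval (ζ ^ k') P = (c : ℂ) := by
  have hord : orderOf ζ = n := hζ.eq_orderOf.symm
  have hfin : IsOfFinOrder ζ := by
    rw [← orderOf_pos_iff, hord]; exact hn
  have h1 : IsPrimitiveRoot (ζ ^ k) (n / Nat.gcd n k) := by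
    have := IsPrimitiveRoot.orderOf (ζ ^ k)
    rwa [hfin.orderOf_pow, hord] at this
  have h2 : IsPrimitiveRoot (ζ ^ k') (n / Nat.gcd n k) := by
    have := IsPrimitiveRoot.orderOf (ζ ^ k')
    rwa [hfin.orderOf_pow, hord, ← hg] at this
  have hm : 0 < n / Nat.gcd n k :=
    Nat.div_pos (Nat.le_of_dvd hn (Nat.gcd_dvd_left n k)) (Nat.gcd_pos_of_pos_left k hn)
  have e1 := Polynomial.cyclotomic_eq_minpoly_rat h1 hm
  have e2 := Polynomial.cyclotomic_eq_minpoly_rat h2 hm
  have hmin : minpoly ℚ (ζ ^ k) = minpoly ℚ (ζ ^ k') := by rw [← e1, ← e2]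
  have hroot : Polynomial.aeval (ζ ^ k) (P - Polynomial.C c) = 0 := by
    rw [map_sub, hk, Polynomial.aeval_C]
    simp
  have hdvd := minpoly.dvd ℚ (ζ ^ k) hroot
  rw [hmin] at hdvd
  obtain ⟨S, hS⟩ := hdvd
  have h3 : Polynomial.aeval (ζ ^ k') (P - Polynomial.C c) = 0 := by
    rw [hS, map_mul, minpoly.aeval, zero_mul]
  rw [map_sub, Polynomial.aeval_C] at h3
  have h4 : Polynomial.aeval (ζ ^ k') P = (algebraMap ℚ ℂ) c := sub_eq_zero.1 h3
  rw [h4]
  simp

lemma gcd_mod_self' (hn : 0 < n) (g : ℕ) (hg : g ∣ n) : Nat.gcd n (g % n) = g := by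
  rcases Nat.lt_or_ge g n with h | h
  · rw [Nat.mod_eq_of_lt h]
    exact Nat.gcd_eq_right hg
  · have hgn : g = n := le_antisymm (Nat.le_of_dvd hn hg) h
    subst hgn
    simp

/-- Counting scalar gates: at least `n - d(n)` of them are needed, `d(n)` the number of
divisors of `n`. -/
lemma invB_final_div (vals : List (Fin n → ℂ)) (s : ℕ) (hn : 2 ≤ n) (h : InvB vals s) {ζ : ℂ}
    (hζ : IsPrimitiveRoot ζ n)
    (he : ∀ k : Fin n, (Pi.single k 1 : Fin n → ℂ) ∈ vals)
    (hr : ∀ j : Fin n, row n ζ j ∈ vals) : n - (Nat.divisors n).card ≤ s := by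
  classical
  have hn0 : 0 < n := by omega
  obtain ⟨T, hT, hmem⟩ := h
  set E : Submodule ℚ (Fin n → ℂ) :=
    Submodule.span ℚ (Set.range (fun k : Fin n => (Pi.single k 1 : Fin n → ℂ))) with hEdef
  set R : Submodule ℚ (Fin n → ℂ) :=
    Submodule.span ℚ (Set.range (fun j : Fin n => row n ζ j)) with hRdef
  set ST : Submodule ℚ (Fin n → ℂ) := Submodule.span ℚ (T : Set (Fin n → ℂ)) with hSTdef
  set DS : Finset (Fin n → ℂ) := (Nat.divisors n).image (fun g => gcdInd n g) with hDSdef
  set D : Submodule ℚ (Fin n → ℂ) := Submodule.span ℚ (DS : Set (Fin n → ℂ)) with hDdef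
  have hEfin : FiniteDimensional ℚ E := by
    rw [hEdef]; exact FiniteDimensional.span_of_finite ℚ (Set.finite_range _)
  have hRfin : FiniteDimensional ℚ R := by
    rw [hRdef]; exact FiniteDimensional.span_of_finite ℚ (Set.finite_range _)
  have hE : finrank ℚ E = n := by
    rw [hEdef, finrank_span_eq_card single_indep, Fintype.card_fin]
  have hR : finrank ℚ R = n := by
    rw [hRdef, finrank_span_eq_card (row_indep hn0 hζ), Fintype.card_fin]
  have hEle : E ≤ ST := by
    rw [hEdef]
    apply Submodule.span_le.2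
    rintro _ ⟨k, rfl⟩
    exact hmem _ (he k)
  have hRle : R ≤ ST := by
    rw [hRdef]
    apply Submodule.span_le.2
    rintro _ ⟨j, rfl⟩
    exact hmem _ (hr j)
  have hsup : finrank ℚ (E ⊔ R : Submodule ℚ (Fin n → ℂ)) ≤ T.card :=
    (Submodule.finrank_mono (sup_le hEle hRle)).trans (finrank_span_finset_le_card T)
  have hle : E ⊓ R ≤ D := by
    intro x hx
    obtain ⟨hxE, hxR⟩ := Submodule.mem_inf.1 hx
    rw [hEdef] at hxE
    rw [hRdef] at hxR
    obtain ⟨a, ha⟩ := (Submodule.mem_span_range_iff_exists_fun ℚ).1 hxE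
    obtain ⟨q, hq⟩ := (Submodule.mem_span_range_iff_exists_fun ℚ).1 hxR
    have hxa : ∀ k : Fin n, x k = (a k : ℂ) := by
      intro k; rw [← ha, single_sum_apply]
    have hxq : ∀ k : Fin n, x k = Polynomial.aeval (ζ ^ (k : ℕ)) (qpoly q) := by
      intro k; rw [← hq, row_sum_apply]
    -- class constancy
    have hcc : ∀ k k' : Fin n, Nat.gcd n (k : ℕ) = Nat.gcd n (k' : ℕ) → a k = a k' := by
      intro k k' hg
      have h1 : Polynomial.aeval (ζ ^ (k : ℕ)) (qpoly q) = (a k : ℂ) := by
        rw [← hxq, hxa]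
      have h2 := class_const hn0 hζ (qpoly q) (a k) (k : ℕ) (k' : ℕ) hg h1
      rw [← hxq, hxa] at h2
      exact_mod_cast h2.symm
    have hxsum : x = ∑ g ∈ Nat.divisors n,
        (a ⟨g % n, Nat.mod_lt _ hn0⟩) • gcdInd n g := by
      funext k
      rw [Finset.sum_apply]
      have hgk : Nat.gcd (k : ℕ) n ∈ Nat.divisors n :=
        Nat.mem_divisors.2 ⟨Nat.gcd_dvd_right _ _, by omega⟩
      rw [Finset.sum_eq_single (Nat.gcd (k : ℕ) n)]
      · rw [Pi.smul_apply, gcdInd, if_pos rfl, hxa]
        have hkk : a k = a ⟨Nat.gcd (k : ℕ) n % n, Nat.mod_lt _ hn0⟩ := by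
          apply hcc
          rw [gcd_mod_self' hn0 _ (Nat.gcd_dvd_right _ _)]
          exact Nat.gcd_comm _ _
        rw [hkk]
        simp
      · intro g _ hgne
        rw [Pi.smul_apply, gcdInd, if_neg (Ne.symm hgne), smul_zero]
      · intro hcon; exact absurd hgk hcon
    rw [hxsum, hDdef]
    apply Submodule.sum_mem
    intro g hg
    apply Submodule.smul_mem
    apply Submodule.subset_span
    rw [hDSdef, Finset.mem_coe, Finset.mem_image]
    exact ⟨g, hg, rfl⟩
  have hinf : finrank ℚ (E ⊓ R : Submodule ℚ (Fin n → ℂ)) ≤ (Nat.divisors n).card := by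
    calc finrank ℚ (E ⊓ R : Submodule ℚ (Fin n → ℂ)) ≤ finrank ℚ D := Submodule.finrank_mono hle
      _ ≤ DS.card := finrank_span_finset_le_card DS
      _ ≤ (Nat.divisors n).card := Finset.card_image_le
  have hdim := Submodule.finrank_sup_add_finrank_inf_eq E R
  omega

end divisors

section main2

/-- The number of divisors of `n` is at most `2 √n`. -/
lemma card_divisors_le_two_sqrt (n : ℕ) : (Nat.divisors n).card ≤ 2 * Nat.sqrt n := by
  classical
  set A : Finset ℕ := Finset.Icc 1 (Nat.sqrt n) with hA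
  have hsub : Nat.divisors n ⊆ A ∪ A.image (fun d => n / d) := by
    intro d hd
    have hdn := Nat.mem_divisors.1 hd
    have hdpos : 0 < d := Nat.pos_of_dvd_of_pos hdn.1 (Nat.pos_of_ne_zero hdn.2)
    rw [Finset.mem_union]
    by_cases hle : d ≤ Nat.sqrt n
    · left
      rw [hA, Finset.mem_Icc]
      exact ⟨hdpos, hle⟩
    · right
      rw [Finset.mem_image]
      rw [not_le] at hle
      obtain ⟨e, he⟩ := hdn.1
      have hepos : 0 < e := by
        rcases Nat.eq_zero_or_pos e with h0 | h0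
        · rw [h0, mul_zero] at he; exact absurd he hdn.2
        · exact h0
      have hele : e ≤ Nat.sqrt n := by
        by_contra hcon
        rw [not_le] at hcon
        have h1 : (Nat.sqrt n + 1) * (Nat.sqrt n + 1) ≤ d * e := Nat.mul_le_mul hle hcon
        have h2 := Nat.lt_succ_sqrt n
        rw [← he] at h1
        exact absurd h1 (not_le.2 h2)
      refine ⟨e, ?_, ?_⟩
      · rw [hA, Finset.mem_Icc]; exact ⟨hepos, hele⟩
      · rw [he, Nat.mul_div_cancel _ hepos]
  calc (Nat.divisors n).card ≤ (A ∪ A.image (fun d => n / d)).card := Finset.card_le_card hsub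
    _ ≤ A.card + (A.image (fun d => n / d)).card := Finset.card_union_le _ _
    _ ≤ A.card + A.card := Nat.add_le_add_left Finset.card_image_le _
    _ = 2 * Nat.sqrt n := by rw [hA, Nat.card_Icc]; omega


variable {n : ℕ}

/-- Counting theorem with the divisor bound: a linear circuit computing the Fourier matrix of a
primitive `n`-th root of unity has at least `2n - 2` addition/subtraction gates and at least
`n - d(n)` scalar gates. -/
theorem main_count_div (hn : 2 ≤ n) {ζ : ℂ} (hζ : IsPrimitiveRoot ζ n) (gs : List Gate)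
    (out : Fin n → ℕ)
    (h : ∀ (x : Fin n → ℂ) (j : Fin n),
      (run (List.ofFn x ++ [0]) gs).getD (out j) 0
        = ∑ k : Fin n, ζ ^ ((j : ℕ) * (k : ℕ)) * x k) :
    2 * n - 2 ≤ binCount gs ∧ n - (Nat.divisors n).card ≤ scalCount gs ∧
      3 * n - (Nat.divisors n).card - 2 ≤ gs.length := by
  classical
  have hrun := run_induction (M := Fin n → ℂ)
    (fun vals b s => InvA vals b ∧ InvB vals s ∧ (0 : Fin n → ℂ) ∈ vals ∧
      ∀ k : Fin n, (Pi.single k 1 : Fin n → ℂ) ∈ vals)
    (by
      intro vals b s u v hu hv hP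
      refine ⟨invA_bin vals b u v (u + v) hu hv ?_ hP.1,
        invB_bin vals s (u + v) (fun T hT => Submodule.add_mem _ (hT u hu) (hT v hv)) hP.2.1,
        List.mem_append_left _ hP.2.2.1, fun k => List.mem_append_left _ (hP.2.2.2 k)⟩
      intro p hp
      by_contra hcon
      rw [not_or, not_not, not_not] at hcon
      exact hp (by simp [hcon.1, hcon.2]))
    (by
      intro vals b s u v hu hv hP
      refine ⟨invA_bin vals b u v (u - v) hu hv ?_ hP.1,
        invB_bin vals s (u - v) (fun T hT => Submodule.sub_mem _ (hT u hu) (hT v hv)) hP.2.1,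
        List.mem_append_left _ hP.2.2.1, fun k => List.mem_append_left _ (hP.2.2.2 k)⟩
      intro p hp
      by_contra hcon
      rw [not_or, not_not, not_not] at hcon
      exact hp (by simp [hcon.1, hcon.2]))
    (by
      intro vals b s c u hu hP
      exact ⟨invA_smul vals b c u (c • u) hu rfl hP.1, invB_smul vals s (c • u) hP.2.1,
        List.mem_append_left _ hP.2.2.1, fun k => List.mem_append_left _ (hP.2.2.2 k)⟩)
    gs (init n) 0 0 (by unfold init; simp)
    ⟨invA_init hn, invB_init, by unfold init; simp, fun k => by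
      unfold init
      rw [List.mem_append, List.mem_ofFn]
      exact Or.inl ⟨k, rfl⟩⟩
  rw [Nat.zero_add, Nat.zero_add] at hrun
  obtain ⟨hA, hB, h0, he⟩ := hrun
  have hrow : ∀ j : Fin n, (run (init n) gs).getD (out j) 0 = row n ζ j := by
    intro j
    funext p
    have h1 := h (Pi.single p 1) j
    rw [run_sym, evalAt_single'] at h1
    rw [h1]
    have h2 := evalAt_single' (fun k : Fin n => ζ ^ ((j : ℕ) * (k : ℕ))) p
    unfold evalAt at h2
    rw [h2]
    rfl
  have hrv : ∀ j : Fin n, row n ζ j ∈ run (init n) gs := by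
    intro j
    rw [← hrow j]
    exact getD_mem _ h0 _
  have hζ0 : ζ ≠ 0 := hζ.ne_zero (by omega)
  have hbin : 2 * n - 2 ≤ binCount gs := by
    refine invA_final _ _ (by omega) hA (fun j : Fin n => row n ζ j) hrv ?_ ?_
    · intro j p
      exact pow_ne_zero _ hζ0
    · intro i j hij μ hμ
      have e0 := congrFun hμ ⟨0, by omega⟩
      have e1 := congrFun hμ ⟨1, by omega⟩
      simp only [row, Pi.smul_apply, mul_zero, pow_zero, mul_one, smul_eq_mul] at e0 e1
      rw [← e0, one_mul] at e1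
      exact hij (Fin.ext (hζ.pow_inj i.2 j.2 e1.symm))
  have hscal : n - (Nat.divisors n).card ≤ scalCount gs := invB_final_div _ _ hn hB hζ he hrv
  refine ⟨hbin, hscal, ?_⟩
  have hlen := count_add gs
  omega

end main2

end Vale.Agent.Lib.LinCircuit
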