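import Mathlib

namespace Vale.Agent.Lib.SignSeq

open Finset

/-- Prepend an element to a sequence. -/
def scons {α : Type*} (a : α) (f : ℕ → α) : ℕ → α
  | 0 => a
  | (n + 1) => f n

@[simp] theorem scons_zero {α : Type*} (a : α) (f : ℕ → α) : scons a f 0 = a := rfl

@[simp] theorem scons_succ {α : Type*} (a : α) (f : ℕ → α) (n : ℕ) :
    scons a f (n + 1) = f n := rfl

/-- The planar doubling gadget in coordinates. -/
theorem planar (r : ℕ) : ∀ (T α β : ℝ), T ≤ 3 → 1 ≤ α ^ 2 + β ^ 2 →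
    T - 2 + 2 * (1 / 2 : ℝ) ^ r ≤ α ^ 2 + β ^ 2 →
    ∃ a b : ℕ → ℝ, (∀ i, a i ^ 2 + b i ^ 2 = 1) ∧
      ∀ ε : ℕ → ℝ, (∀ i, ε i = 1 ∨ ε i = -1) →
        ∃ k, k ≤ r ∧ T ≤ (α + ∑ i ∈ range k, ε i * a i) ^ 2
          + (β + ∑ i ∈ range k, ε i * b i) ^ 2 := by
  induction r with
  | zero =>
    intro T α β _ _ h2
    refine ⟨fun _ => 1, fun _ => 0, by intro i; norm_num, ?_⟩
    intro ε _
    refine ⟨0, le_refl _, ?_⟩
    simp at h2 ⊢
    linarith
  | succ r ih =>
    intro T α β hT h1 h2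
    by_cases hAT : T ≤ α ^ 2 + β ^ 2
    · refine ⟨fun _ => 1, fun _ => 0, by intro i; norm_num, ?_⟩
      intro ε _
      exact ⟨0, Nat.zero_le _, by simpa using hAT⟩
    · rw [not_le] at hAT
      have hpow : (1 / 2 : ℝ) ^ (r + 1) = (1 / 2) * (1 / 2 : ℝ) ^ r := by ring
      have hpos : (0 : ℝ) < (1 / 2 : ℝ) ^ r := by positivity
      have hle1 : (1 / 2 : ℝ) ^ r ≤ 1 := pow_le_one₀ (by norm_num) (by norm_num)
      rw [hpow] at h2
      obtain ⟨A, hA⟩ : ∃ A : ℝ, A = α ^ 2 + β ^ 2 := ⟨_, rfl⟩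
      rw [← hA] at h1 h2 hAT
      obtain ⟨c, hc⟩ : ∃ c : ℝ, c = (T - 1 - A) / 2 := ⟨_, rfl⟩
      have hcl : -(1 / 2) < c := by rw [hc]; linarith
      have hcu : c ≤ 1 / 2 := by rw [hc]; linarith
      have hc2 : c ^ 2 ≤ A := by nlinarith
      obtain ⟨t, ht⟩ : ∃ t : ℝ, t = Real.sqrt (A - c ^ 2) := ⟨_, rfl⟩
      have htsq : t ^ 2 = A - c ^ 2 := by rw [ht]; exact Real.sq_sqrt (by linarith)
      have hA0 : A ≠ 0 := by linarith
      obtain ⟨wa, hwa⟩ : ∃ wa : ℝ, wa = (c * α - t * β) / A := ⟨_, rfl⟩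
      obtain ⟨wb, hwb⟩ : ∃ wb : ℝ, wb = (c * β + t * α) / A := ⟨_, rfl⟩
      have hw : wa ^ 2 + wb ^ 2 = 1 := by
        rw [hwa, hwb, div_pow, div_pow, ← add_div, div_eq_one_iff_eq (pow_ne_zero 2 hA0)]
        linear_combination (α ^ 2 + β ^ 2) * htsq - A * hA
      have hsw : α * wa + β * wb = c := by
        rw [hwa, hwb]
        field_simp
        linear_combination (-c) * hA
      have hminus : (α - wa) ^ 2 + (β - wb) ^ 2 = 2 * A + 2 - T := by
        have : (α - wa) ^ 2 + (β - wb) ^ 2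
            = (α ^ 2 + β ^ 2) + (wa ^ 2 + wb ^ 2) - 2 * (α * wa + β * wb) := by ring
        rw [this, hw, hsw, ← hA, hc]
        ring
      have hplus : (α + wa) ^ 2 + (β + wb) ^ 2 = T := by
        have : (α + wa) ^ 2 + (β + wb) ^ 2
            = (α ^ 2 + β ^ 2) + (wa ^ 2 + wb ^ 2) + 2 * (α * wa + β * wb) := by ring
        rw [this, hw, hsw, ← hA, hc]
        ring
      obtain ⟨a, b, hab, hforce⟩ := ih T (α - wa) (β - wb) hT
        (by rw [hminus]; linarith) (by rw [hminus]; linarith)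
      refine ⟨scons wa a, scons wb b, ?_, ?_⟩
      · intro i
        cases i with
        | zero => simpa using hw
        | succ n => simpa using hab n
      · intro ε hε
        rcases hε 0 with h0 | h0
        · refine ⟨1, by omega, ?_⟩
          simp [h0]
          linarith
        · obtain ⟨k, hk, hk2⟩ := hforce (fun i => ε (i + 1)) (fun i => hε (i + 1))
          refine ⟨k + 1, by omega, ?_⟩
          rw [Finset.sum_range_succ', Finset.sum_range_succ']
          simp only [scons_succ, scons_zero, h0]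
          have e1 : α + (∑ i ∈ range k, ε (i + 1) * a i + -1 * wa)
              = α - wa + ∑ i ∈ range k, ε (i + 1) * a i := by ring
          have e2 : β + (∑ i ∈ range k, ε (i + 1) * b i + -1 * wb)
              = β - wb + ∑ i ∈ range k, ε (i + 1) * b i := by ring
          rw [e1, e2]
          exact hk2

/-- A sequence of `r + 1` planar unit vectors forcing squared norm `3 - 2 (1/2)^r`. -/
theorem planar_seq (r : ℕ) : ∃ a b : ℕ → ℝ, (∀ i, a i ^ 2 + b i ^ 2 = 1) ∧
    ∀ ε : ℕ → ℝ, (∀ i, ε i = 1 ∨ ε i = -1) →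
      ∃ k, k ≤ r + 1 ∧ 3 - 2 * (1 / 2 : ℝ) ^ r ≤ (∑ i ∈ range k, ε i * a i) ^ 2
        + (∑ i ∈ range k, ε i * b i) ^ 2 := by
  have hpos : (0 : ℝ) < (1 / 2 : ℝ) ^ r := by positivity
  obtain ⟨a, b, hab, hforce⟩ := planar r (3 - 2 * (1 / 2 : ℝ) ^ r) 1 0 (by linarith)
    (by norm_num) (by
      have h10 : (1 : ℝ) ^ 2 + 0 ^ 2 = 1 := by norm_num
      rw [h10]
      linarith)
  refine ⟨scons 1 a, scons 0 b, ?_, ?_⟩
  · intro i
    cases i with
    | zero => simp
    | succ n => simpa using hab n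
  · intro ε hε
    rcases hε 0 with h0 | h0
    · obtain ⟨k, hk, hk2⟩ := hforce (fun i => ε (i + 1)) (fun i => hε (i + 1))
      refine ⟨k + 1, by omega, ?_⟩
      rw [Finset.sum_range_succ', Finset.sum_range_succ']
      simp only [scons_succ, scons_zero, h0]
      have e1 : ∑ i ∈ range k, ε (i + 1) * a i + 1 * 1
          = 1 + ∑ i ∈ range k, ε (i + 1) * a i := by ring
      have e2 : ∑ i ∈ range k, ε (i + 1) * b i + 1 * 0
          = 0 + ∑ i ∈ range k, ε (i + 1) * b i := by ring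
      rw [e1, e2]
      exact hk2
    · obtain ⟨k, hk, hk2⟩ := hforce (fun i => -ε (i + 1)) (fun i => by
        rcases hε (i + 1) with h | h
        · right; rw [h]
        · left; rw [h]; norm_num)
      refine ⟨k + 1, by omega, ?_⟩
      rw [Finset.sum_range_succ', Finset.sum_range_succ']
      simp only [scons_succ, scons_zero, h0]
      have e1 : (∑ i ∈ range k, ε (i + 1) * a i + -1 * 1) ^ 2
          = (1 + ∑ i ∈ range k, -ε (i + 1) * a i) ^ 2 := by
        simp only [neg_mul, Finset.sum_neg_distrib]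
        ring
      have e2 : (∑ i ∈ range k, ε (i + 1) * b i + -1 * 0) ^ 2
          = (0 + ∑ i ∈ range k, -ε (i + 1) * b i) ^ 2 := by
        simp only [neg_mul, Finset.sum_neg_distrib]
        ring
      rw [e1, e2]
      exact hk2

theorem eq_one_of_sq {x : ℝ} (h0 : 0 ≤ x) (h : x ^ 2 = 1) : x = 1 := by
  nlinarith

section Inner

variable {E : Type*} [NormedAddCommGroup E] [InnerProductSpace ℝ E]

open scoped RealInnerProductSpace

theorem norm_sq_planar (p q : E) (hp : ‖p‖ = 1) (hq : ‖q‖ = 1) (hpq : inner ℝ p q = 0)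
    (x y : ℝ) : ‖x • p + y • q‖ ^ 2 = x ^ 2 + y ^ 2 := by
  rw [norm_add_sq_real, norm_smul, norm_smul, hp, hq, inner_smul_left, inner_smul_right, hpq]
  simp [sq_abs]

theorem sum_planar (p q : E) (a b ε : ℕ → ℝ) (k : ℕ) :
    ∑ i ∈ range k, ε i • (a i • p + b i • q)
      = (∑ i ∈ range k, ε i * a i) • p + (∑ i ∈ range k, ε i * b i) • q := by
  simp only [smul_add, smul_smul, Finset.sum_add_distrib, Finset.sum_smul]

/-- Every signing of the first `N` vectors has a prefix of squared norm at least `T`. -/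
def Forces (v : ℕ → E) (N : ℕ) (T : ℝ) : Prop :=
  ∀ ε : ℕ → ℝ, (∀ i, ε i = 1 ∨ ε i = -1) →
    ∃ k, k ≤ N ∧ T ≤ ‖∑ i ∈ range k, ε i • v i‖ ^ 2

theorem forces_prepend (u : E) (hu : ‖u‖ = 1) (v : ℕ → E) (huv : ∀ i, inner ℝ u (v i) = 0)
    (N : ℕ) (T : ℝ) (h : Forces v N T) : Forces (scons u v) (N + 1) (T + 1) := by
  intro ε hε
  obtain ⟨k, hk, hk2⟩ := h (fun i => ε (i + 1)) (fun i => hε (i + 1))
  refine ⟨k + 1, by omega, ?_⟩
  rw [Finset.sum_range_succ']
  simp only [scons_succ, scons_zero]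
  have hin : inner ℝ (∑ i ∈ range k, ε (i + 1) • v i) (ε 0 • u) = 0 := by
    rw [sum_inner]
    apply Finset.sum_eq_zero
    intro i _
    rw [inner_smul_left, inner_smul_right, real_inner_comm, huv i]
    simp
  have hn : ‖ε 0 • u‖ ^ 2 = 1 := by
    rw [norm_smul, hu]
    rcases hε 0 with h0 | h0 <;> rw [h0] <;> simp
  rw [norm_add_sq_real, hin, hn]
  linarith

theorem exists_forcing (d : ℕ) (u : ℕ → E)
    (hu : ∀ i j, i < d → j < d → inner ℝ (u i) (u j) = if i = j then 1 else 0) (r : ℕ) :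
    ∀ m, m + 2 ≤ d → ∃ v : ℕ → E, (∀ i, ‖v i‖ = 1) ∧
      (∀ i j, m + 2 ≤ j → j < d → inner ℝ (u j) (v i) = 0) ∧
      Forces v (r + 1 + m) (3 - 2 * (1 / 2 : ℝ) ^ r + m) := by
  have hunit : ∀ i, i < d → ‖u i‖ = 1 := by
    intro i hi
    have h := hu i i hi hi
    rw [if_pos rfl, real_inner_self_eq_norm_sq] at h
    exact eq_one_of_sq (norm_nonneg _) h
  intro m
  induction m with
  | zero =>
    intro hd
    obtain ⟨a, b, hab, hf⟩ := planar_seq r
    have hu0 : ‖u 0‖ = 1 := hunit 0 (by omega)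
    have hu1 : ‖u 1‖ = 1 := hunit 1 (by omega)
    have h01 : inner ℝ (u 0) (u 1) = 0 := by
      rw [hu 0 1 (by omega) (by omega)]
      simp
    refine ⟨fun i => a i • u 0 + b i • u 1, ?_, ?_, ?_⟩
    · intro i
      apply eq_one_of_sq (norm_nonneg _)
      rw [norm_sq_planar (u 0) (u 1) hu0 hu1 h01, hab i]
    · intro i j hj hjd
      rw [inner_add_right, inner_smul_right, inner_smul_right,
        hu j 0 hjd (by omega), hu j 1 hjd (by omega)]
      have h0 : ¬ j = 0 := by omega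
      have h1 : ¬ j = 1 := by omega
      simp [h0, h1]
    · intro ε hε
      obtain ⟨k, hk, hk2⟩ := hf ε hε
      refine ⟨k, by omega, ?_⟩
      rw [sum_planar, norm_sq_planar (u 0) (u 1) hu0 hu1 h01]
      simpa using hk2
  | succ m ih =>
    intro hm
    obtain ⟨v, hv1, hv2, hv3⟩ := ih (by omega)
    refine ⟨scons (u (m + 2)) v, ?_, ?_, ?_⟩
    · intro i
      cases i with
      | zero => simpa using hunit (m + 2) (by omega)
      | succ n => simpa using hv1 n
    · intro i j hj hjd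
      cases i with
      | zero =>
        simp only [scons_zero]
        rw [hu j (m + 2) hjd (by omega)]
        have : ¬ j = m + 2 := by omega
        simp [this]
      | succ n =>
        simp only [scons_succ]
        exact hv2 n j (by omega) hjd
    · have h := forces_prepend (u (m + 2)) (hunit (m + 2) (by omega)) v
        (fun i => hv2 i (m + 2) (le_refl _) (by omega)) _ _ hv3
      have e1 : r + 1 + (m + 1) = r + 1 + m + 1 := by ring
      have e2 : (3 : ℝ) - 2 * (1 / 2 : ℝ) ^ r + ((m + 1 : ℕ) : ℝ)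
          = 3 - 2 * (1 / 2 : ℝ) ^ r + (m : ℝ) + 1 := by
        rw [Nat.cast_add, Nat.cast_one]
        ring
      rw [e1, e2]
      exact h

end Inner

open scoped RealInnerProductSpace in
/-- In `ℝ^d`, `d ≥ 2`, there are `d + r - 1` unit vectors such that every signing has a
prefix sum of squared norm at least `d + 1 - 2 (1/2)^r`. -/
theorem euclid_forcing (d : ℕ) (hd : 2 ≤ d) (r : ℕ) :
    ∃ v : ℕ → EuclideanSpace ℝ (Fin d), (∀ i, ‖v i‖ = 1) ∧
      ∀ ε : ℕ → ℝ, (∀ i, ε i = 1 ∨ ε i = -1) →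
        ∃ k, k ≤ d + r - 1 ∧
          (d : ℝ) + 1 - 2 * (1 / 2 : ℝ) ^ r ≤ ‖∑ i ∈ range k, ε i • v i‖ ^ 2 := by
  obtain ⟨u, hu⟩ : ∃ u : ℕ → EuclideanSpace ℝ (Fin d),
      ∀ i j, i < d → j < d → inner ℝ (u i) (u j) = if i = j then 1 else 0 := by
    refine ⟨fun j => if h : j < d then EuclideanSpace.basisFun (Fin d) ℝ ⟨j, h⟩ else 0, ?_⟩
    intro i j hi hj
    simp only [dif_pos hi, dif_pos hj]
    have h := orthonormal_iff_ite.mp (EuclideanSpace.basisFun (Fin d) ℝ).orthonormal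
      ⟨i, hi⟩ ⟨j, hj⟩
    rw [h]
    simp [Fin.ext_iff]
  obtain ⟨v, hv1, _, hv3⟩ := exists_forcing d u hu r (d - 2) (by omega)
  refine ⟨v, hv1, ?_⟩
  intro ε hε
  obtain ⟨k, hk, hk2⟩ := hv3 ε hε
  refine ⟨k, by omega, ?_⟩
  have hc : ((d - 2 : ℕ) : ℝ) = (d : ℝ) - 2 := by
    rw [Nat.cast_sub hd]
    norm_num
  rw [hc] at hk2
  linarith

end Vale.Agent.Lib.SignSeq
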